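import Vale.Agent.P113.Rho

/-!
# P113: the calculus of admissible functions

`PAdm g`: the function `g ν t x` is given, for all `ν`, `t`, `x`, by one finite list of periodic
terms. These functions are smooth, and closed under sums, products and partial derivatives.
-/

namespace Vale.Agent.P113

open Set Filter Topology
open scoped ContDiff

lemma kappa_ne : kappa ≠ 0 := kappa_pos.ne'

/-! ### codes of rational numbers -/

/-- the rational number with a given code -/
def valQ (r : ℤ × ℕ) : ℚ := (r.1 : ℚ) / (r.2 : ℚ)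

lemma val_eq (r : ℤ × ℕ) : val r = (valQ r : ℝ) := by
  unfold val valQ; push_cast; rfl

/-- a code of a rational number -/
def code (q : ℚ) : ℤ × ℕ := (q.num, q.den)

@[simp] lemma valQ_code (q : ℚ) : valQ (code q) = q := by
  unfold valQ code; exact Rat.num_div_den q

@[simp] lemma val_code (q : ℚ) : val (code q) = (q : ℝ) := by
  rw [val_eq, valQ_code]

/-! ### bumps -/

lemma contDiff_iteratedDeriv_rho (j : ℕ) : ContDiff ℝ ∞ (iteratedDeriv j rho) := by
  induction j with
  | zero => rw [iteratedDeriv_zero]; exact contDiff_rho (n := ⊤)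
  | succ j ih =>
    rw [iteratedDeriv_succ]
    exact (contDiff_infty_iff_deriv.1 ih).2

lemma hasDerivAt_iteratedDeriv_rho (j : ℕ) (s : ℝ) :
    HasDerivAt (iteratedDeriv j rho) (iteratedDeriv (j + 1) rho s) s := by
  rw [iteratedDeriv_succ]
  exact ((contDiff_infty_iff_deriv.1 (contDiff_iteratedDeriv_rho j)).1 s).hasDerivAt

lemma hasCompactSupport_iteratedDeriv_rho (j : ℕ) :
    HasCompactSupport (iteratedDeriv j rho) := by
  induction j with
  | zero => rw [iteratedDeriv_zero]; exact hasCompactSupport_rho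
  | succ j ih => rw [iteratedDeriv_succ]; exact ih.deriv

lemma hasCompactSupport_comp_affine {f : ℝ → ℝ} (hf : HasCompactSupport f) {a : ℝ} (ha : a ≠ 0)
    (b : ℝ) : HasCompactSupport (fun s => f (a * s - b)) := by
  obtain ⟨R, hR⟩ := exists_bound_of_hasCompactSupport hf
  apply HasCompactSupport.intro
    (isCompact_Icc (a := -((|R| + |b|) / |a|)) (b := (|R| + |b|) / |a|))
  intro s hs
  apply hR
  by_contra h
  apply hs
  rw [mem_Icc, ← abs_le]
  have ha' : 0 < |a| := abs_pos.2 ha
  rw [le_div_iff₀ ha', mul_comm, ← abs_mul]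
  calc |a * s| = |(a * s - b) + b| := by ring_nf
    _ ≤ |a * s - b| + |b| := abs_add_le _ _
    _ ≤ R + |b| := by linarith [not_lt.1 h]
    _ ≤ |R| + |b| := by linarith [le_abs_self R]

lemma contDiff_bump (g : Bump) : ContDiff ℝ ∞ (bump g) := by
  rcases g with ⟨k, j, a, b⟩ | ⟨k, l, a, b⟩
  · change ContDiff ℝ ∞ fun s => s ^ k * iteratedDeriv j rho (val a * s - val b)
    exact (contDiff_id.pow k).mul ((contDiff_iteratedDeriv_rho j).comp
      ((contDiff_const.mul contDiff_id).sub contDiff_const))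
  · change ContDiff ℝ ∞ fun s => s ^ k * pil (val l) (val a * s - val b)
    exact (contDiff_id.pow k).mul ((contDiff_pil (n := ⊤) (val l)).comp
      ((contDiff_const.mul contDiff_id).sub contDiff_const))

lemma hasCompactSupport_bump {g : Bump} (hg : BumpOK g) : HasCompactSupport (bump g) := by
  rcases g with ⟨k, j, a, b⟩ | ⟨k, l, a, b⟩
  · change HasCompactSupport fun s => s ^ k * iteratedDeriv j rho (val a * s - val b)
    have ha : val a ≠ 0 := hg
    exact (hasCompactSupport_comp_affine (hasCompactSupport_iteratedDeriv_rho j) ha _).mul_left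
  · change HasCompactSupport fun s => s ^ k * pil (val l) (val a * s - val b)
    have ha : val a ≠ 0 ∧ 0 < val l := hg
    exact (hasCompactSupport_comp_affine (hasCompactSupport_pil ha.2.le) ha.1 _).mul_left

lemma hasDerivAt_pow' (k : ℕ) (s : ℝ) : HasDerivAt (fun s : ℝ => s ^ k) (k * s ^ (k - 1)) s :=
  hasDerivAt_pow k s

lemma hasDerivAt_comp_affine {f : ℝ → ℝ} {f' a b s : ℝ} (h : HasDerivAt f f' (a * s - b)) :
    HasDerivAt (fun s => f (a * s - b)) (a * f') s := by
  have h1 : HasDerivAt (fun s : ℝ => a * s - b) a s := by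
    simpa using ((hasDerivAt_id s).const_mul a).sub_const b
  have := HasDerivAt.comp s h h1
  rw [mul_comm]
  exact this

/-- the derivative of a bump is a finite rational combination of bumps -/
lemma hasDerivAt_bump {g : Bump} (hg : BumpOK g) : ∃ L : List ((ℤ × ℕ) × Bump),
    (∀ z ∈ L, BumpOK z.2) ∧
    ∀ s, HasDerivAt (bump g) ((L.map fun z => val z.1 * bump z.2 s).sum) s := by
  rcases g with ⟨k, j, a, b⟩ | ⟨k, l, a, b⟩
  · have ha : val a ≠ 0 := hg
    refine ⟨[(code k, Sum.inl (k - 1, j, a, b)), (a, Sum.inl (k, j + 1, a, b))], ?_, ?_⟩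
    · intro z hz
      simp only [List.mem_cons, List.not_mem_nil, or_false] at hz
      rcases hz with rfl | rfl
      · exact ha
      · exact ha
    · intro s
      have h := (hasDerivAt_pow' k s).mul (hasDerivAt_comp_affine
        (hasDerivAt_iteratedDeriv_rho j (val a * s - val b)))
      have e : (List.map (fun z : (ℤ × ℕ) × Bump => val z.1 * bump z.2 s)
          [(code k, Sum.inl (k - 1, j, a, b)), (a, Sum.inl (k, j + 1, a, b))]).sum =
          k * s ^ (k - 1) * iteratedDeriv j rho (val a * s - val b) +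
          s ^ k * (val a * iteratedDeriv (j + 1) rho (val a * s - val b)) := by
        simp only [List.map_cons, List.map_nil, List.sum_cons, List.sum_nil, val_code, bump,
          Sum.elim_inl]
        push_cast
        ring
      rw [e]
      exact h
  · have ha : val a ≠ 0 ∧ 0 < val l := hg
    refine ⟨[(code k, Sum.inr (k - 1, l, a, b)), (a, Sum.inl (k, 0, a, b)),
      (code (-valQ a), Sum.inl (k, 0, a, code (valQ b + valQ l)))], ?_, ?_⟩
    · intro z hz
      simp only [List.mem_cons, List.not_mem_nil, or_false] at hz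
      rcases hz with rfl | rfl | rfl
      · exact ha
      · exact ha.1
      · exact ha.1
    · intro s
      have h := (hasDerivAt_pow' k s).mul (hasDerivAt_comp_affine
        (hasDerivAt_pil (val l) (val a * s - val b)))
      have e : (List.map (fun z : (ℤ × ℕ) × Bump => val z.1 * bump z.2 s)
          [(code k, Sum.inr (k - 1, l, a, b)), (a, Sum.inl (k, 0, a, b)),
            (code (-valQ a), Sum.inl (k, 0, a, code (valQ b + valQ l)))]).sum =
          k * s ^ (k - 1) * pil (val l) (val a * s - val b) +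
          s ^ k * (val a * (rho (val a * s - val b) - rho (val a * s - val b - val l))) := by
        simp only [List.map_cons, List.map_nil, List.sum_cons, List.sum_nil, val_code, bump,
          Sum.elim_inl, Sum.elim_inr, iteratedDeriv_zero]
        push_cast
        rw [← val_eq, ← val_eq, ← val_eq]
        rw [show val a * s - (val b + val l) = val a * s - val b - val l by ring]
        ring
      rw [e]
      exact h

/-! ### periodizations of bumps -/

lemma contDiff_per_bump {g : Bump} (hg : BumpOK g) : ContDiff ℝ ∞ (per (bump g)) :=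
  contDiff_per (contDiff_bump g) (hasCompactSupport_bump hg)

lemma summable_of_hasCompactSupport {f : ℝ → ℝ} (hf : HasCompactSupport f) (y : ℝ) :
    Summable fun m : ℤ => f (y + m) := by
  obtain ⟨R, hR⟩ := exists_bound_of_hasCompactSupport hf
  obtain ⟨N, hN⟩ := exists_nat_gt (|y| + R)
  apply summable_of_ne_finset_zero (s := Finset.Icc (-(N : ℤ)) N)
  intro m hm
  apply hR
  rw [Finset.mem_Icc, not_and_or, not_le, not_le] at hm
  have h1 : (N : ℝ) < |(m : ℝ)| := by
    rcases hm with hm | hm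
    · have : (m : ℝ) < -(N : ℝ) := by exact_mod_cast hm
      rw [abs_of_neg (by have := Nat.cast_nonneg (α := ℝ) N; linarith)]
      linarith
    · have : (N : ℝ) < m := by exact_mod_cast hm
      exact this.trans_le (le_abs_self _)
  have h2 : |(m : ℝ)| ≤ |y + m| + |y| := by
    calc |(m : ℝ)| = |(y + m) - y| := by ring_nf
      _ ≤ |y + m| + |y| := abs_sub _ _
  linarith

lemma per_listSum {L : List ((ℤ × ℕ) × Bump)} (hL : ∀ z ∈ L, BumpOK z.2) (y : ℝ) :
    per (fun s => (L.map fun z => val z.1 * bump z.2 s).sum) y =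
      (L.map fun z => val z.1 * per (bump z.2) y).sum := by
  induction L with
  | nil => simp [per]
  | cons z L ih =>
    have hz := hL z (by simp)
    have hL' : ∀ z ∈ L, BumpOK z.2 := fun w hw => hL w (by simp [hw])
    have h1 : Summable fun m : ℤ => val z.1 * bump z.2 (y + m) :=
      (summable_of_hasCompactSupport (hasCompactSupport_bump hz) y).mul_left _
    have h2 : Summable fun m : ℤ => (L.map fun z => val z.1 * bump z.2 (y + m)).sum := by
      clear ih hL
      induction L with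
      | nil => simp
      | cons w L ih =>
        simp only [List.map_cons, List.sum_cons]
        exact ((summable_of_hasCompactSupport
          (hasCompactSupport_bump (hL' w (by simp))) y).mul_left _).add
          (ih fun v hv => hL' v (by simp [hv]))
    simp only [List.map_cons, List.sum_cons]
    rw [← ih hL']
    unfold per
    rw [h1.tsum_add h2, tsum_mul_left]

lemma hasDerivAt_per_bump {g : Bump} (hg : BumpOK g) : ∃ L : List ((ℤ × ℕ) × Bump),
    (∀ z ∈ L, BumpOK z.2) ∧
    ∀ y, HasDerivAt (per (bump g)) ((L.map fun z => val z.1 * per (bump z.2) y).sum) y := by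
  obtain ⟨L, hL, h⟩ := hasDerivAt_bump hg
  refine ⟨L, hL, fun y => ?_⟩
  rw [← per_listSum hL]
  exact hasDerivAt_per h (hasCompactSupport_bump hg) y

/-! ### lists of periodic terms -/

/-- `g ν t x` is given by a finite list of periodic terms -/
def PAdm (g : ℝ → ℝ → (Fin 3 → ℝ) → ℝ) : Prop :=
  ∃ L : List Term, (∀ τ ∈ L, TermOK τ ∧ isPeriodic τ = true) ∧
    ∀ ν t x, g ν t x = (L.map fun τ => term ν τ t x).sum

/-- the product of two terms -/
def tmul (σ τ : Term) : Term :=
  ((code (valQ σ.1.1 * valQ τ.1.1), σ.1.2.1 + τ.1.2.1, σ.1.2.2.1 + τ.1.2.2.1,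
    σ.1.2.2.2 ++ τ.1.2.2.2), σ.2.1 ++ τ.2.1, σ.2.2 ++ τ.2.2)

lemma term_tmul (ν : ℝ) (σ τ : Term) (t : ℝ) (x : Fin 3 → ℝ) :
    term ν (tmul σ τ) t x = term ν σ t x * term ν τ t x := by
  simp only [term, tmul, val_code, List.map_append, List.prod_append, pow_add,
    zpow_add₀ kappa_ne]
  push_cast
  rw [← val_eq, ← val_eq]
  ring

lemma termOK_tmul {σ τ : Term} (hσ : TermOK σ) (hτ : TermOK τ) : TermOK (tmul σ τ) := by
  refine ⟨?_, ?_, ?_⟩
  · intro r hr
    rcases List.mem_append.1 hr with h | h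
    · exact hσ.1 r h
    · exact hτ.1 r h
  · intro r hr
    rcases List.mem_append.1 hr with h | h
    · exact hσ.2.1 r h
    · exact hτ.2.1 r h
  · intro r hr
    rcases List.mem_append.1 hr with h | h
    · exact hσ.2.2 r h
    · exact hτ.2.2 r h

lemma isPeriodic_tmul {σ τ : Term} (hσ : isPeriodic σ = true) (hτ : isPeriodic τ = true) :
    isPeriodic (tmul σ τ) = true := by
  simp only [isPeriodic, tmul, List.all_append, Bool.and_eq_true] at *
  exact ⟨hσ, hτ⟩

lemma PAdm.congr {g h : ℝ → ℝ → (Fin 3 → ℝ) → ℝ} (hg : PAdm g)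
    (e : ∀ ν t x, h ν t x = g ν t x) : PAdm h := by
  obtain ⟨L, hL, hgL⟩ := hg
  exact ⟨L, hL, fun ν t x => by rw [e, hgL]⟩

lemma PAdm.zero : PAdm fun _ _ _ => 0 := ⟨[], by simp, by simp⟩

lemma PAdm.add {g h : ℝ → ℝ → (Fin 3 → ℝ) → ℝ} (hg : PAdm g) (hh : PAdm h) :
    PAdm fun ν t x => g ν t x + h ν t x := by
  obtain ⟨L, hL, hgL⟩ := hg
  obtain ⟨K, hK, hhK⟩ := hh
  refine ⟨L ++ K, ?_, fun ν t x => by simp [hgL, hhK]⟩
  intro τ hτ
  rcases List.mem_append.1 hτ with h | h
  · exact hL τ h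
  · exact hK τ h

lemma PAdm.mul {g h : ℝ → ℝ → (Fin 3 → ℝ) → ℝ} (hg : PAdm g) (hh : PAdm h) :
    PAdm fun ν t x => g ν t x * h ν t x := by
  obtain ⟨L, hL, hgL⟩ := hg
  obtain ⟨K, hK, hhK⟩ := hh
  refine ⟨L.flatMap fun σ => K.map fun τ => tmul σ τ, ?_, fun ν t x => ?_⟩
  · intro τ hτ
    rw [List.mem_flatMap] at hτ
    obtain ⟨σ, hσ, hτ⟩ := hτ
    rw [List.mem_map] at hτ
    obtain ⟨τ', hτ', rfl⟩ := hτ
    exact ⟨termOK_tmul (hL σ hσ).1 (hK τ' hτ').1, isPeriodic_tmul (hL σ hσ).2 (hK τ' hτ').2⟩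
  · change g ν t x * h ν t x = _
    rw [hgL, hhK]
    clear hgL hL
    induction L with
    | nil => simp
    | cons σ L ih =>
      simp only [List.map_cons, List.sum_cons, List.flatMap_cons, List.map_append,
        List.sum_append, add_mul, ih, List.map_map]
      congr 1
      rw [← List.sum_map_mul_left]
      congr 1
      apply List.map_congr_left
      intro τ _
      simp [term_tmul]

lemma PAdm.of_term {τ : Term} (h : TermOK τ) (hp : isPeriodic τ = true) :
    PAdm fun ν t x => term ν τ t x := by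
  refine ⟨[τ], ?_, fun ν t x => by simp⟩
  intro σ hσ
  rw [List.mem_singleton] at hσ
  subst hσ
  exact ⟨h, hp⟩

lemma PAdm.const (q : ℚ) : PAdm fun _ _ _ => (q : ℝ) := by
  refine (PAdm.of_term (τ := ((code q, 0, 0, []), [], [])) ⟨by simp, by simp, by simp⟩
    (by simp [isPeriodic])).congr fun ν t x => ?_
  simp [term]

lemma PAdm.one : PAdm fun _ _ _ => 1 := (PAdm.const 1).congr fun _ _ _ => by norm_num

lemma PAdm.nu : PAdm fun ν _ _ => ν := by
  refine (PAdm.of_term (τ := ((code 1, 1, 0, []), [], [])) ⟨by simp, by simp, by simp⟩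
    (by simp [isPeriodic])).congr fun ν t x => ?_
  simp [term]

lemma PAdm.kappa_zpow (n : ℤ) : PAdm fun _ _ _ => kappa ^ n := by
  refine (PAdm.of_term (τ := ((code 1, 0, n, []), [], [])) ⟨by simp, by simp, by simp⟩
    (by simp [isPeriodic])).congr fun ν t x => ?_
  simp [term]

lemma PAdm.kappa_inv : PAdm fun _ _ _ => kappa⁻¹ :=
  (PAdm.kappa_zpow (-1)).congr fun _ _ _ => by simp

lemma PAdm.log {r : ℚ} (hr : 0 < r) : PAdm fun _ _ _ => Real.log (r : ℝ) := by
  refine (PAdm.of_term (τ := ((code 1, 0, 0, [code r]), [], []))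
    ⟨by simpa using hr, by simp, by simp⟩ (by simp [isPeriodic])).congr fun ν t x => ?_
  simp [term]

lemma PAdm.time {g : Bump} (hg : BumpOK g) : PAdm fun _ t _ => per (bump g) t := by
  refine (PAdm.of_term (τ := ((code 1, 0, 0, []), [(true, g)], []))
    ⟨by simp, by simpa using hg, by simp⟩ (by simp [isPeriodic])).congr fun ν t x => ?_
  simp [term]

lemma PAdm.space (i : Fin 3) {g : Bump} (hg : BumpOK g) :
    PAdm fun _ _ x => per (bump g) (x i) := by
  refine (PAdm.of_term (τ := ((code 1, 0, 0, []), [], [(i, g)]))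
    ⟨by simp, by simp, by simpa using hg⟩ (by simp [isPeriodic])).congr fun ν t x => ?_
  simp [term]

lemma PAdm.neg {g : ℝ → ℝ → (Fin 3 → ℝ) → ℝ} (hg : PAdm g) : PAdm fun ν t x => -g ν t x :=
  ((PAdm.const (-1)).mul hg).congr fun ν t x => by push_cast; ring

lemma PAdm.sub {g h : ℝ → ℝ → (Fin 3 → ℝ) → ℝ} (hg : PAdm g) (hh : PAdm h) :
    PAdm fun ν t x => g ν t x - h ν t x :=
  (hg.add hh.neg).congr fun ν t x => by ring

lemma PAdm.const_mul (q : ℚ) {g : ℝ → ℝ → (Fin 3 → ℝ) → ℝ} (hg : PAdm g) :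
    PAdm fun ν t x => (q : ℝ) * g ν t x :=
  (PAdm.const q).mul hg

lemma PAdm.listSum {ι : Type*} (L : List ι) {g : ι → ℝ → ℝ → (Fin 3 → ℝ) → ℝ}
    (hg : ∀ i ∈ L, PAdm (g i)) : PAdm fun ν t x => (L.map fun i => g i ν t x).sum := by
  induction L with
  | nil => simpa using PAdm.zero
  | cons i L ih =>
    simp only [List.map_cons, List.sum_cons]
    exact (hg i (by simp)).add (ih fun j hj => hg j (by simp [hj]))

lemma PAdm.sum {ι : Type*} (s : Finset ι) {g : ι → ℝ → ℝ → (Fin 3 → ℝ) → ℝ}
    (hg : ∀ i ∈ s, PAdm (g i)) : PAdm fun ν t x => ∑ i ∈ s, g i ν t x := by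
  classical
  induction s using Finset.induction_on with
  | empty => simpa using PAdm.zero
  | insert i s hi ih =>
    refine ((hg i (by simp)).add (ih fun j hj => hg j (by simp [hj]))).congr fun ν t x => ?_
    rw [Finset.sum_insert hi]

lemma PAdm.pow {g : ℝ → ℝ → (Fin 3 → ℝ) → ℝ} (hg : PAdm g) (n : ℕ) :
    PAdm fun ν t x => g ν t x ^ n := by
  induction n with
  | zero => simpa using PAdm.one
  | succ n ih => simpa [pow_succ] using ih.mul hg

/-! ### derivatives -/

/-- `PAdm` together with its partial derivatives, and smooth -/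
structure SAdm (g : ℝ → ℝ → (Fin 3 → ℝ) → ℝ) : Prop where
  adm : PAdm g
  smooth : ∀ ν, ContDiff ℝ ∞ (fun z : ℝ × (Fin 3 → ℝ) => g ν z.1 z.2)
  dt : PAdm fun ν t x => deriv (fun s => g ν s x) t
  dx : ∀ i, PAdm fun ν t x => pd i (g ν t) x

lemma differentiable_time {g : ℝ → (Fin 3 → ℝ) → ℝ}
    (h : ContDiff ℝ ∞ (fun z : ℝ × (Fin 3 → ℝ) => g z.1 z.2)) (x : Fin 3 → ℝ) :
    Differentiable ℝ fun s => g s x :=
  (h.comp (contDiff_id.prodMk contDiff_const)).differentiable (by simp)

lemma contDiff_slice {g : ℝ → (Fin 3 → ℝ) → ℝ}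
    (h : ContDiff ℝ ∞ (fun z : ℝ × (Fin 3 → ℝ) => g z.1 z.2)) (t : ℝ) :
    ContDiff ℝ ∞ (g t) :=
  h.comp (contDiff_const.prodMk contDiff_id)

lemma differentiable_space {g : ℝ → (Fin 3 → ℝ) → ℝ}
    (h : ContDiff ℝ ∞ (fun z : ℝ × (Fin 3 → ℝ) => g z.1 z.2)) (t : ℝ) :
    Differentiable ℝ (g t) :=
  (contDiff_slice h t).differentiable (by simp)

lemma pd_add {f g : (Fin 3 → ℝ) → ℝ} {x : Fin 3 → ℝ} (hf : DifferentiableAt ℝ f x)
    (hg : DifferentiableAt ℝ g x) (i : Fin 3) :
    pd i (fun y => f y + g y) x = pd i f x + pd i g x := by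
  unfold pd
  rw [fderiv_fun_add hf hg]
  rfl

lemma pd_mul {f g : (Fin 3 → ℝ) → ℝ} {x : Fin 3 → ℝ} (hf : DifferentiableAt ℝ f x)
    (hg : DifferentiableAt ℝ g x) (i : Fin 3) :
    pd i (fun y => f y * g y) x = f x * pd i g x + pd i f x * g x := by
  unfold pd
  rw [fderiv_fun_mul hf hg]
  simp [mul_comm]

lemma SAdm.congr {g h : ℝ → ℝ → (Fin 3 → ℝ) → ℝ} (hg : SAdm g)
    (e : ∀ ν t x, h ν t x = g ν t x) : SAdm h := by
  have : h = g := by funext ν t x; exact e ν t x
  rw [this]; exact hg

lemma SAdm.add {g h : ℝ → ℝ → (Fin 3 → ℝ) → ℝ} (hg : SAdm g) (hh : SAdm h) :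
    SAdm fun ν t x => g ν t x + h ν t x where
  adm := hg.adm.add hh.adm
  smooth ν := (hg.smooth ν).add (hh.smooth ν)
  dt := (hg.dt.add hh.dt).congr fun ν t x =>
    deriv_fun_add (differentiable_time (hg.smooth ν) x t) (differentiable_time (hh.smooth ν) x t)
  dx i := ((hg.dx i).add (hh.dx i)).congr fun ν t x =>
    pd_add (differentiable_space (hg.smooth ν) t x) (differentiable_space (hh.smooth ν) t x) i

lemma SAdm.mul {g h : ℝ → ℝ → (Fin 3 → ℝ) → ℝ} (hg : SAdm g) (hh : SAdm h) :
    SAdm fun ν t x => g ν t x * h ν t x where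
  adm := hg.adm.mul hh.adm
  smooth ν := (hg.smooth ν).mul (hh.smooth ν)
  dt := ((hg.dt.mul hh.adm).add (hg.adm.mul hh.dt)).congr fun ν t x =>
    deriv_fun_mul (differentiable_time (hg.smooth ν) x t) (differentiable_time (hh.smooth ν) x t)
  dx i := ((hg.adm.mul (hh.dx i)).add ((hg.dx i).mul hh.adm)).congr fun ν t x =>
    pd_mul (differentiable_space (hg.smooth ν) t x) (differentiable_space (hh.smooth ν) t x) i

lemma SAdm.of_const {c : ℝ → ℝ} (h : PAdm fun ν _ _ => c ν) : SAdm fun ν _ _ => c ν where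
  adm := h
  smooth _ := contDiff_const
  dt := PAdm.zero.congr fun ν t x => by simp
  dx i := PAdm.zero.congr fun ν t x => by simp [pd]

lemma SAdm.time {g : Bump} (hg : BumpOK g) : SAdm fun _ t _ => per (bump g) t where
  adm := PAdm.time hg
  smooth _ := (contDiff_per_bump hg).comp contDiff_fst
  dt := by
    obtain ⟨L, hL, h⟩ := hasDerivAt_per_bump hg
    refine (PAdm.listSum L (g := fun z _ t _ => val z.1 * per (bump z.2) t) ?_).congr
      fun ν t x => (h t).deriv
    intro z hz
    exact ((PAdm.time (hL z hz)).const_mul (valQ z.1)).congr fun ν t x => by rw [val_eq]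
  dx i := PAdm.zero.congr fun ν t x => by simp [pd]

lemma pd_comp_apply {f : ℝ → ℝ} {f' : ℝ} {x : Fin 3 → ℝ} {j : Fin 3}
    (h : HasDerivAt f f' (x j)) (i : Fin 3) :
    pd i (fun y => f (y j)) x = if i = j then f' else 0 := by
  have h1 : HasFDerivAt (fun y : Fin 3 → ℝ => y j)
      (ContinuousLinearMap.proj (R := ℝ) (φ := fun _ : Fin 3 => ℝ) j) x :=
    (ContinuousLinearMap.proj (R := ℝ) (φ := fun _ : Fin 3 => ℝ) j).hasFDerivAt
  have h2 := h.comp_hasFDerivAt x h1
  unfold pd
  have h3 : HasFDerivAt (fun y : Fin 3 → ℝ => f (y j))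
    (f' • ContinuousLinearMap.proj (R := ℝ) (φ := fun _ : Fin 3 => ℝ) j) x := h2
  rw [h3.fderiv]
  by_cases hij : i = j
  · subst hij; simp
  · simp [hij, Ne.symm hij]

lemma SAdm.space (j : Fin 3) {g : Bump} (hg : BumpOK g) :
    SAdm fun _ _ x => per (bump g) (x j) where
  adm := PAdm.space j hg
  smooth _ := (contDiff_per_bump hg).comp ((contDiff_apply ℝ ℝ j).comp contDiff_snd)
  dt := PAdm.zero.congr fun ν t x => by simp
  dx i := by
    obtain ⟨L, hL, h⟩ := hasDerivAt_per_bump hg
    by_cases hij : i = j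
    · refine (PAdm.listSum L (g := fun z _ _ x => val z.1 * per (bump z.2) (x j)) ?_).congr
        fun ν t x => ?_
      · intro z hz
        exact ((PAdm.space j (hL z hz)).const_mul (valQ z.1)).congr fun ν t x => by rw [val_eq]
      · rw [pd_comp_apply (h (x j)), if_pos hij]
    · exact PAdm.zero.congr fun ν t x => by rw [pd_comp_apply (h (x j)), if_neg hij]

lemma SAdm.listProd {ι : Type*} (L : List ι) {g : ι → ℝ → ℝ → (Fin 3 → ℝ) → ℝ}
    (hg : ∀ i ∈ L, SAdm (g i)) : SAdm fun ν t x => (L.map fun i => g i ν t x).prod := by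
  induction L with
  | nil => simpa using SAdm.of_const (c := fun _ => 1) PAdm.one
  | cons i L ih =>
    simp only [List.map_cons, List.prod_cons]
    exact (hg i (by simp)).mul (ih fun j hj => hg j (by simp [hj]))

lemma SAdm.listSum {ι : Type*} (L : List ι) {g : ι → ℝ → ℝ → (Fin 3 → ℝ) → ℝ}
    (hg : ∀ i ∈ L, SAdm (g i)) : SAdm fun ν t x => (L.map fun i => g i ν t x).sum := by
  induction L with
  | nil => simpa using SAdm.of_const (c := fun _ => 0) PAdm.zero
  | cons i L ih =>
    simp only [List.map_cons, List.sum_cons]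
    exact (hg i (by simp)).add (ih fun j hj => hg j (by simp [hj]))

lemma SAdm.of_term {τ : Term} (h : TermOK τ) (hp : isPeriodic τ = true) :
    SAdm fun ν t x => term ν τ t x := by
  have h1 : SAdm fun ν _ _ => val τ.1.1 * ν ^ τ.1.2.1 * kappa ^ τ.1.2.2.1 *
      (τ.1.2.2.2.map fun r => Real.log (val r)).prod := by
    apply SAdm.of_const
    refine (PAdm.of_term (τ := (τ.1, [], [])) ⟨h.1, by simp, by simp⟩
      (by simp [isPeriodic])).congr fun ν t x => ?_
    simp [term]
  have h2 : SAdm fun _ t _ =>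
      (τ.2.1.map fun g => if g.1 = true then per (bump g.2) t else bump g.2 t).prod := by
    apply SAdm.listProd τ.2.1 (g := fun (g : Bool × Bump) _ t _ =>
      if g.1 = true then per (bump g.2) t else bump g.2 t)
    intro g hg
    have hg1 : g.1 = true := by
      unfold isPeriodic at hp
      exact List.all_eq_true.1 hp g hg
    exact (SAdm.time (h.2.1 g hg)).congr fun ν t x => by rw [if_pos hg1]
  have h3 : SAdm fun _ _ x => (τ.2.2.map fun g => per (bump g.2) (x g.1)).prod :=
    SAdm.listProd (g := fun g _ _ x => per (bump g.2) (x g.1)) _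
      fun g hg => SAdm.space g.1 (h.2.2 g hg)
  exact ((h1.mul h2).mul h3).congr fun ν t x => rfl

theorem PAdm.sadm {g : ℝ → ℝ → (Fin 3 → ℝ) → ℝ} (hg : PAdm g) : SAdm g := by
  obtain ⟨L, hL, h⟩ := hg
  exact (SAdm.listSum L (g := fun τ ν t x => term ν τ t x)
    fun τ hτ => SAdm.of_term (hL τ hτ).1 (hL τ hτ).2).congr h

/-- admissible functions are smooth -/
theorem PAdm.contDiff {g : ℝ → ℝ → (Fin 3 → ℝ) → ℝ} (hg : PAdm g) (ν : ℝ) :
    ContDiff ℝ ∞ (fun z : ℝ × (Fin 3 → ℝ) => g ν z.1 z.2) := hg.sadm.smooth ν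

/-- the time derivative of an admissible function is admissible -/
theorem PAdm.deriv_time {g : ℝ → ℝ → (Fin 3 → ℝ) → ℝ} (hg : PAdm g) :
    PAdm fun ν t x => deriv (fun s => g ν s x) t := hg.sadm.dt

/-- the partial derivatives of an admissible function are admissible -/
theorem PAdm.pd {g : ℝ → ℝ → (Fin 3 → ℝ) → ℝ} (hg : PAdm g) (i : Fin 3) :
    PAdm fun ν t x => Vale.Agent.P113.pd i (g ν t) x := hg.sadm.dx i

/-- periodic terms have period one in space -/
theorem PAdm.periodic_space {g : ℝ → ℝ → (Fin 3 → ℝ) → ℝ} (hg : PAdm g) (ν t : ℝ)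
    (x : Fin 3 → ℝ) (k : Fin 3 → ℤ) : g ν t (fun i => x i + k i) = g ν t x := by
  obtain ⟨L, hL, h⟩ := hg
  rw [h, h]
  congr 1
  apply List.map_congr_left
  intro τ _
  simp only [term, per_add_int]

/-- periodic terms have period one in time -/
theorem PAdm.periodic_time {g : ℝ → ℝ → (Fin 3 → ℝ) → ℝ} (hg : PAdm g) (ν t : ℝ)
    (x : Fin 3 → ℝ) (k : ℤ) : g ν (t + k) x = g ν t x := by
  obtain ⟨L, hL, h⟩ := hg
  rw [h, h]
  congr 1
  apply List.map_congr_left
  intro τ hτ
  have hp := (hL τ hτ).2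
  simp only [term, per_add_int]
  congr 2
  congr 1
  apply List.map_congr_left
  intro g hg
  have hg1 : g.1 = true := by
    unfold isPeriodic at hp
    exact List.all_eq_true.1 hp g hg
  rw [if_pos hg1, if_pos hg1]

/-- the force of an admissible velocity is admissible -/
theorem PAdm.force_of_velocity {u : Fin 3 → ℝ → ℝ → (Fin 3 → ℝ) → ℝ} (hu : ∀ i, PAdm (u i))
    (i : Fin 3) : PAdm fun ν t x => deriv (fun s => u i ν s x) t +
      ∑ j, u j ν t x * Vale.Agent.P113.pd j (u i ν t) x -
      ν * ∑ j, Vale.Agent.P113.pd j (fun y => Vale.Agent.P113.pd j (u i ν t) y) x := by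
  apply PAdm.sub
  · apply PAdm.add
    · exact (hu i).deriv_time
    · exact PAdm.sum _ fun j _ => (hu j).mul ((hu i).pd j)
  · apply PAdm.nu.mul
    exact PAdm.sum _ fun j _ => ((hu i).pd j).pd j

end Vale.Agent.P113
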