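import Vale.Agent.P113.Defs

/-!
# P113: the halting set is recursively enumerable
-/

namespace Vale.Agent.P113

/-! ## Finite configurations -/

/-- A finite configuration: state, cells to the left of the head (nearest first), cells from the
head to the right. -/
abbrev FConfig := ℕ × List ℕ × List ℕ

/-- The tape of a finite configuration whose head is at `p`. -/
def ftape (c : FConfig) (p : ℤ) : ℤ → ℕ := fun i =>
  if p ≤ i then c.2.2.getD (i - p).toNat 0 else c.2.1.getD (p - 1 - i).toNat 0

/-- Writing a symbol and moving. -/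
def fmove (c : FConfig) (r : ℕ × ℕ × Option Bool) : FConfig :=
  r.2.2.elim (r.1, c.2.1, r.2.1 :: c.2.2.tail) fun b =>
    if b = true then (r.1, r.2.1 :: c.2.1, c.2.2.tail)
    else (r.1, c.2.1.tail, c.2.1.headI :: r.2.1 :: c.2.2.tail)

/-- One step on finite configurations. -/
def fnext (M : Machine) (c : FConfig) : FConfig :=
  (List.lookup (c.1, c.2.2.headI) M.2.2).elim c fun r => fmove c r

/-- A finite configuration represents a configuration. -/
def Rep (c : Config) (d : FConfig) : Prop := c.1 = d.1 ∧ c.2.1 = ftape d c.2.2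

theorem headI_eq_getD (l : List ℕ) : l.headI = l.getD 0 0 := by
  cases l <;> rfl

theorem tail_getD (l : List ℕ) (n : ℕ) : l.tail.getD n 0 = l.getD (n + 1) 0 := by
  cases l <;> simp

theorem rep_next (M : Machine) {c : Config} {d : FConfig} (h : Rep c d) :
    Rep (next M c) (fnext M d) := by
  obtain ⟨q, T, p⟩ := c
  obtain ⟨q', L, R⟩ := d
  obtain ⟨h1, h2⟩ := h
  simp only at h1 h2
  subst h1
  subst h2
  have hhead : ftape (q, L, R) p p = R.headI := by
    simp [ftape, headI_eq_getD]
  unfold next fnext
  simp only [hhead]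
  cases List.lookup (q, R.headI) M.2.2 with
  | none => exact ⟨rfl, rfl⟩
  | some r =>
    obtain ⟨s, b, dir⟩ := r
    simp only [Option.elim]
    unfold fmove
    rcases dir with _ | _ | _
    · refine ⟨rfl, ?_⟩
      funext i
      simp only [ftape, shift, Option.elim, Function.update_apply, add_zero]
      split_ifs with h3 h4 h4
      · subst h3; simp
      · omega
      · obtain ⟨k, hk⟩ : ∃ k : ℕ, (i - p).toNat = k + 1 := ⟨(i - p).toNat - 1, by omega⟩
        rw [hk]
        simp
      · rfl
    · refine ⟨rfl, ?_⟩
      funext i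
      simp only [ftape, shift, Option.elim, Function.update_apply, Bool.false_eq_true, if_false]
      split_ifs with h3 h4 h4 h4 h4
      · subst h3
        have : (i - (i + -1)).toNat = 1 := by omega
        rw [this]; simp
      · omega
      · obtain ⟨k, hk⟩ : ∃ k : ℕ, (i - (p + -1)).toNat = k + 2 :=
          ⟨(i - (p + -1)).toNat - 2, by omega⟩
        have hk' : (i - p).toNat = k + 1 := by omega
        rw [hk, hk']
        simp
      · omega
      · have h5 : (i - (p + -1)).toNat = 0 := by omega
        have h6 : (p - 1 - i).toNat = 0 := by omega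
        rw [h5, h6]
        simp [headI_eq_getD]
      · have h5 : (p - 1 - i).toNat = (p + -1 - 1 - i).toNat + 1 := by omega
        rw [h5, tail_getD]
    · refine ⟨rfl, ?_⟩
      funext i
      simp only [ftape, shift, Option.elim, Function.update_apply, if_true]
      split_ifs with h3 h4 h4 h4 h4
      · omega
      · subst h3
        have : (i + 1 - 1 - i).toNat = 0 := by omega
        rw [this]; simp
      · have h5 : (i - p).toNat = (i - (p + 1)).toNat + 1 := by omega
        rw [h5, tail_getD]
      · omega
      · omega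
      · obtain ⟨k, hk⟩ : ∃ k : ℕ, (p + 1 - 1 - i).toNat = k + 1 :=
          ⟨(p + 1 - 1 - i).toNat - 1, by omega⟩
        have hk' : (p - 1 - i).toNat = k := by omega
        rw [hk, hk']
        simp

theorem rep_start (M : Machine) (w : List ℕ) : Rep (start M w) (M.1, [], w) := by
  refine ⟨rfl, ?_⟩
  funext i
  simp [start, ftape]

theorem rep_iterate (M : Machine) (w : List ℕ) (n : ℕ) :
    Rep ((next M)^[n] (start M w)) ((fnext M)^[n] (M.1, [], w)) := by
  induction n with
  | zero => exact rep_start M w
  | succ n ih =>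
    rw [Function.iterate_succ_apply', Function.iterate_succ_apply']
    exact rep_next M ih

theorem halts_iff (M : Machine) (w : List ℕ) :
    Halts M w ↔ ∃ n : ℕ, ((fnext M)^[n] (M.1, [], w)).1 ∈ M.2.1 := by
  constructor
  · rintro ⟨n, hn⟩
    exact ⟨n, (rep_iterate M w n).1 ▸ hn⟩
  · rintro ⟨n, hn⟩
    exact ⟨n, (rep_iterate M w n).1.symm ▸ hn⟩

/-! ## Computability -/

theorem lookup_eq_foldr {α β : Type*} [BEq α] [LawfulBEq α] [DecidableEq α] (k : α)
    (l : List (α × β)) :
    List.lookup k l = l.foldr (fun p acc => bif decide (k = p.1) then some p.2 else acc) none := by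
  induction l with
  | nil => rfl
  | cons p l ih =>
    obtain ⟨a, b⟩ := p
    rw [List.lookup_cons, List.foldr_cons, ih]
    by_cases h : k = a
    · subst h; simp
    · have h' : (k == a) = false := by simpa using h
      simp [h, h']

theorem primrec_lookup {α β γ : Type*} [Primcodable α] [Primcodable β] [Primcodable γ]
    [BEq α] [LawfulBEq α] [DecidableEq α] {f : γ → α} {g : γ → List (α × β)} (hf : Primrec f)
    (hg : Primrec g) : Primrec fun c => List.lookup (f c) (g c) := by
  have h1 : Primrec fun c => (g c).foldr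
      (fun p acc => bif decide (f c = p.1) then some p.2 else acc) none := by
    refine Primrec.list_foldr (h := fun c (z : (α × β) × Option β) =>
      bif decide (f c = z.1.1) then some z.1.2 else z.2) hg
      (Primrec.const none) ?_
    refine Primrec.cond ?_ ?_ ?_
    · exact Primrec.eq.decide.comp (hf.comp Primrec.fst)
        (Primrec.fst.comp (Primrec.fst.comp Primrec.snd))
    · exact Primrec.option_some.comp (Primrec.snd.comp (Primrec.fst.comp Primrec.snd))
    · exact Primrec.snd.comp Primrec.snd
  exact h1.of_eq fun c => (lookup_eq_foldr _ _).symm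

theorem primrec_fmove : Primrec₂ fmove := by
  unfold fmove
  have hL : Primrec fun z : FConfig × (ℕ × ℕ × Option Bool) => z.1.2.1 :=
    Primrec.fst.comp (Primrec.snd.comp Primrec.fst)
  have hR : Primrec fun z : FConfig × (ℕ × ℕ × Option Bool) => z.1.2.2.tail :=
    Primrec.list_tail.comp (Primrec.snd.comp (Primrec.snd.comp Primrec.fst))
  have hq : Primrec fun z : FConfig × (ℕ × ℕ × Option Bool) => z.2.1 :=
    Primrec.fst.comp Primrec.snd
  have hb : Primrec fun z : FConfig × (ℕ × ℕ × Option Bool) => z.2.2.1 :=
    Primrec.fst.comp (Primrec.snd.comp Primrec.snd)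
  have hd : Primrec fun z : FConfig × (ℕ × ℕ × Option Bool) => z.2.2.2 :=
    Primrec.snd.comp (Primrec.snd.comp Primrec.snd)
  have h1 : Primrec fun z : FConfig × (ℕ × ℕ × Option Bool) =>
      (Option.casesOn (motive := fun _ => FConfig) z.2.2.2 (z.2.1, z.1.2.1, z.2.2.1 :: z.1.2.2.tail)
        fun b => bif b then (z.2.1, z.2.2.1 :: z.1.2.1, z.1.2.2.tail)
          else (z.2.1, z.1.2.1.tail, z.1.2.1.headI :: z.2.2.1 :: z.1.2.2.tail)) := by
    refine Primrec.option_casesOn hd (hq.pair (hL.pair (Primrec.list_cons.comp hb hR))) ?_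
    refine Primrec.cond Primrec.snd ?_ ?_
    · exact (hq.comp Primrec.fst).pair
        ((Primrec.list_cons.comp (hb.comp Primrec.fst) (hL.comp Primrec.fst)).pair
          (hR.comp Primrec.fst))
    · exact (hq.comp Primrec.fst).pair
        ((Primrec.list_tail.comp (hL.comp Primrec.fst)).pair
          (Primrec.list_cons.comp (Primrec.list_headI.comp (hL.comp Primrec.fst))
            (Primrec.list_cons.comp (hb.comp Primrec.fst) (hR.comp Primrec.fst))))
  refine h1.of_eq fun z => ?_
  obtain ⟨c, q, b, d⟩ := z
  rcases d with _ | _ | _ <;> rfl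

theorem primrec_fnext : Primrec₂ fnext := by
  have hl : Primrec fun z : Machine × FConfig =>
      List.lookup (z.2.1, z.2.2.2.headI) z.1.2.2 := by
    refine primrec_lookup (α := ℕ × ℕ) (β := ℕ × ℕ × Option Bool) (γ := Machine × FConfig)
      (f := fun z => (z.2.1, z.2.2.2.headI)) (g := fun z => z.1.2.2) ?_ ?_
    · exact (Primrec.fst.comp Primrec.snd).pair
        (Primrec.list_headI.comp (Primrec.snd.comp (Primrec.snd.comp Primrec.snd)))
    · exact Primrec.snd.comp (Primrec.snd.comp Primrec.fst)
  have h1 : Primrec fun z : Machine × FConfig =>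
      (Option.casesOn (motive := fun _ => FConfig) (List.lookup (z.2.1, z.2.2.2.headI) z.1.2.2) z.2
        fun r => fmove z.2 r) := by
    refine Primrec.option_casesOn hl Primrec.snd ?_
    exact primrec_fmove.comp (Primrec.snd.comp Primrec.fst) Primrec.snd
  refine h1.of_eq fun z => ?_
  unfold fnext
  cases List.lookup (z.2.1, z.2.2.2.headI) z.1.2.2 <;> rfl

/-- Membership as a Boolean. -/
def memb (k : ℕ) (l : List ℕ) : Bool :=
  l.foldr (fun b acc => bif b == k then true else acc) false

theorem memb_iff (k : ℕ) (l : List ℕ) : memb k l = true ↔ k ∈ l := by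
  induction l with
  | nil => simp [memb]
  | cons b l ih =>
    have h1 : memb k (b :: l) = bif b == k then true else memb k l := rfl
    rw [h1]
    by_cases h : b = k
    · subst h; simp
    · have h' : ¬ k = b := fun h'' => h h''.symm
      simp [h, h', ih]

theorem primrec_memb : Primrec₂ memb := by
  refine Primrec.list_foldr (f := fun a : ℕ × List ℕ => a.2) (g := fun _ => false)
    (h := fun a (z : ℕ × Bool) => bif z.1 == a.1 then true else z.2)
    Primrec.snd (Primrec.const false) ?_
  exact Primrec.cond (Primrec.beq.comp (Primrec.fst.comp Primrec.snd)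
    (Primrec.fst.comp Primrec.fst)) (Primrec.const true) (Primrec.snd.comp Primrec.snd)

/-- Whether the state after `n` steps is halting. -/
def haltsAt (z : Machine × List ℕ) (n : ℕ) : Bool :=
  memb ((fnext z.1)^[n] (z.1.1, [], z.2)).1 z.1.2.1

theorem primrec_haltsAt : Primrec₂ haltsAt := by
  have h1 : Primrec fun z : (Machine × List ℕ) × ℕ =>
      (fnext z.1.1)^[z.2] (z.1.1.1, [], z.1.2) := by
    refine Primrec.nat_iterate (f := fun z : (Machine × List ℕ) × ℕ => z.2)
      (g := fun z : (Machine × List ℕ) × ℕ => ((z.1.1.1, [], z.1.2) : FConfig))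
      (h := fun z c => fnext z.1.1 c) Primrec.snd ?_ ?_
    · exact (Primrec.fst.comp (Primrec.fst.comp Primrec.fst)).pair
        ((Primrec.const []).pair (Primrec.snd.comp Primrec.fst))
    · exact primrec_fnext.comp (Primrec.fst.comp (Primrec.fst.comp Primrec.fst)) Primrec.snd
  exact primrec_memb.comp (Primrec.fst.comp h1)
    (Primrec.fst.comp (Primrec.snd.comp (Primrec.fst.comp Primrec.fst)))

theorem halts_iff_haltsAt (z : Machine × List ℕ) :
    Halts z.1 z.2 ↔ ∃ n : ℕ, haltsAt z n = true := by
  rw [halts_iff]
  exact exists_congr fun n => (memb_iff _ _).symm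

/-- The halting set is recursively enumerable. -/
theorem halts_re : REPred fun z : Machine × List ℕ => Halts z.1 z.2 := by
  have h4 : Partrec fun z : Machine × List ℕ => Nat.rfind fun n => Part.some (haltsAt z n) :=
    Partrec.rfind primrec_haltsAt.to_comp.partrec₂
  refine h4.dom_re.of_eq fun z => ?_
  rw [halts_iff_haltsAt]
  refine Nat.rfind_dom'.trans ?_
  constructor
  · rintro ⟨n, hn, -⟩
    exact ⟨n, (Part.mem_some_iff.1 hn).symm⟩
  · rintro ⟨n, hn⟩
    exact ⟨n, Part.mem_some_iff.2 hn.symm, fun _ => trivial⟩

/-- The halting set, coded by natural numbers. -/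
def HaltsCode (n : ℕ) : Prop :=
  ∃ z : Machine × List ℕ, Encodable.decode n = some z ∧ Halts z.1 z.2

theorem haltsCode_encode (z : Machine × List ℕ) :
    HaltsCode (Encodable.encode z) ↔ Halts z.1 z.2 := by
  simp [HaltsCode, Encodable.encodek]

theorem haltsCode_re : REPred HaltsCode := by
  have h1 : Partrec fun n : ℕ => (Part.ofOption (Encodable.decode n) :
      Part (Machine × List ℕ)).bind fun z => Part.assert (Halts z.1 z.2) fun _ => Part.some () := by
    refine Partrec.bind ?_ ?_
    · exact Computable.ofOption (Computable.decode (α := Machine × List ℕ))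
    · exact (halts_re : Partrec _).comp Computable.snd
  refine h1.dom_re.of_eq fun n => ?_
  unfold HaltsCode
  constructor
  · intro h
    rw [Part.dom_iff_mem] at h
    obtain ⟨y, hy⟩ := h
    rw [Part.mem_bind_iff] at hy
    obtain ⟨z, hz, hy⟩ := hy
    rw [Part.mem_ofOption] at hz
    rw [Part.mem_assert_iff] at hy
    exact ⟨z, hz, hy.1⟩
  · rintro ⟨z, hz, hh⟩
    rw [Part.dom_iff_mem]
    refine ⟨(), ?_⟩
    rw [Part.mem_bind_iff]
    refine ⟨z, by rw [Part.mem_ofOption]; exact hz, ?_⟩
    rw [Part.mem_assert_iff]
    exact ⟨hh, Part.mem_some _⟩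

end Vale.Agent.P113
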