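import Vale.Agent.P113.Adm

/-!
# P113: the force given by lists of terms is smooth and periodic in space
-/

namespace Vale.Agent.P113

open Set Filter Topology
open scoped ContDiff

lemma contDiff_listProd {E : Type*} [NormedAddCommGroup E] [NormedSpace ℝ E] {ι : Type*}
    {n : WithTop ℕ∞} (L : List ι) {g : ι → E → ℝ} (hg : ∀ i ∈ L, ContDiff ℝ n (g i)) :
    ContDiff ℝ n fun z => (L.map fun i => g i z).prod := by
  induction L with
  | nil => simpa using contDiff_const
  | cons i L ih =>
    simp only [List.map_cons, List.prod_cons]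
    exact (hg i (by simp)).mul (ih fun j hj => hg j (by simp [hj]))

lemma contDiff_listSum {E : Type*} [NormedAddCommGroup E] [NormedSpace ℝ E] {ι : Type*}
    {n : WithTop ℕ∞} (L : List ι) {g : ι → E → ℝ} (hg : ∀ i ∈ L, ContDiff ℝ n (g i)) :
    ContDiff ℝ n fun z => (L.map fun i => g i z).sum := by
  induction L with
  | nil => simpa using contDiff_const
  | cons i L ih =>
    simp only [List.map_cons, List.sum_cons]
    exact (hg i (by simp)).add (ih fun j hj => hg j (by simp [hj]))

/-- a term is a smooth function of time and space -/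
theorem contDiff_term {τ : Term} (h : TermOK τ) (ν : ℝ) :
    ContDiff ℝ ∞ (fun z : ℝ × (Fin 3 → ℝ) => term ν τ z.1 z.2) := by
  unfold term
  refine (contDiff_const.mul ?_).mul ?_
  · refine contDiff_listProd τ.2.1 (g := fun (g : Bool × Bump) (z : ℝ × (Fin 3 → ℝ)) =>
      if g.1 = true then per (bump g.2) z.1 else bump g.2 z.1) fun g hg => ?_
    by_cases hb : g.1 = true
    · simp only [hb, if_true]
      exact (contDiff_per_bump (h.2.1 g hg)).comp contDiff_fst
    · simp only [hb]
      exact (contDiff_bump g.2).comp contDiff_fst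
  · refine contDiff_listProd τ.2.2 (g := fun (g : Fin 3 × Bump) (z : ℝ × (Fin 3 → ℝ)) =>
      per (bump g.2) (z.2 g.1)) fun g hg => ?_
    exact (contDiff_per_bump (h.2.2 g hg)).comp ((contDiff_apply ℝ ℝ g.1).comp contDiff_snd)

/-- a force given by lists of terms is smooth -/
theorem contDiff_force {L : Fin 3 → List Term} (h : ∀ i, ∀ τ ∈ L i, TermOK τ) (ν : ℝ) :
    ContDiff ℝ ∞ (fun z : ℝ × (Fin 3 → ℝ) => force ν L z.1 z.2) := by
  rw [contDiff_pi]
  intro i
  unfold force
  exact contDiff_listSum (L i) (g := fun τ (z : ℝ × (Fin 3 → ℝ)) => term ν τ z.1 z.2)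
    fun τ hτ => contDiff_term (h i τ hτ) ν

/-- a force given by lists of terms has period one in space -/
theorem force_periodic (L : Fin 3 → List Term) (ν t : ℝ) (x : Fin 3 → ℝ) (k : Fin 3 → ℤ) :
    force ν L t (fun i => x i + k i) = force ν L t x := by
  funext i
  unfold force
  congr 1
  apply List.map_congr_left
  intro τ _
  simp only [term, per_add_int]

end Vale.Agent.P113
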