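import Vale.Agent.P113.Orbit
import Vale.Agent.P113.Adm
import Vale.Agent.P113.Halting
import Vale.Agent.P113.H760.Universal
import Vale.Agent.P113.PDE.Final
import Vale.Agent.P113.Smooth

/-!
# P113: assembly
-/

namespace Vale.Agent.P113

open Set Filter Topology Metric
open scoped ContDiff
open H760

/-- What is needed of the periodic field built from a piecewise affine system. -/
structure GeomField (F : PAM) (uU : ℝ → (Fin 3 → ℝ) → Fin 3 → ℝ) : Prop where
  adm : ∀ i, PAdm fun _ t x => uU t x i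
  div : ∀ t x, ∑ j, pd j (fun y => uU t y j) x = 0
  zero : ∀ t, 0 ≤ t → t ≤ 1 / 4 → ∀ x, uU t x = 0
  step : ∀ (k : ℕ) (i : Fin F.n) (P : ℚ × ℚ), ((F.rule i).src).Mem P →
    ∃ Y : ℝ → Fin 3 → ℝ, Y k = emb P ∧ Y (k + 1) = emb ((F.rule i).map P) ∧
      ∀ t ∈ Icc (k : ℝ) (k + 1), HasDerivAt Y (uU t (Y t)) t ∧ -1 / 4 ≤ Y t 2 ∧ Y t 2 ≤ 1 / 4
  halt : ∀ (k : ℕ) (j : Fin F.m) (P : ℚ × ℚ), (F.halt j).Mem P →
    ∃ (Y : ℝ → Fin 3 → ℝ) (s : ℝ), (k : ℝ) + 1 / 4 ≤ s ∧ Y k = emb P ∧
      Y s = ![(P.1 : ℝ), (P.2 : ℝ), 1 / 2] ∧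
      ∀ t ∈ Icc (k : ℝ) s, HasDerivAt Y (uU t (Y t)) t

/-! ### loading -/

/-- the time profile of the loading velocity -/
noncomputable def ldTh (t : ℝ) : ℝ := 8 / kappa * rho (8 * t - 1)

/-- its primitive -/
noncomputable def ldG (t : ℝ) : ℝ := sig (8 * t - 1) / kappa

lemma hasDerivAt_ldG (t : ℝ) : HasDerivAt ldG (ldTh t) t := by
  unfold ldG ldTh
  have h1 : HasDerivAt (fun t : ℝ => 8 * t - 1) 8 t := by
    simpa using ((hasDerivAt_id t).const_mul 8).sub_const 1
  have h2 : HasDerivAt (fun t : ℝ => sig (8 * t - 1) / kappa) (rho (8 * t - 1) * 8 / kappa) t :=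
    (HasDerivAt.comp (h₂ := sig) t (hasDerivAt_sig (8 * t - 1)) h1).div_const kappa
  have h3 : 8 / kappa * rho (8 * t - 1) = rho (8 * t - 1) * 8 / kappa := by ring
  rw [h3]
  exact h2

lemma ldG_zero : ldG 0 = 0 := by
  unfold ldG
  rw [sig_of_le (by norm_num)]
  simp

lemma ldG_one {t : ℝ} (ht : 1 / 4 ≤ t) : ldG t = 1 := by
  unfold ldG
  rw [sig_of_ge (by linarith), div_self kappa_ne]

lemma ldTh_zero_of_ge {t : ℝ} (ht : 1 / 4 ≤ t) : ldTh t = 0 := by
  unfold ldTh
  rw [rho_zero (by rw [abs_of_nonneg (by linarith)]; linarith), mul_zero]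

lemma ldTh_zero : ldTh 0 = 0 := by
  unfold ldTh
  rw [rho_zero (by norm_num), mul_zero]

lemma contDiff_ldTh : ContDiff ℝ ∞ ldTh := by
  unfold ldTh
  exact contDiff_const.mul ((contDiff_rho (n := ⊤)).comp
    ((contDiff_const.mul contDiff_id).sub contDiff_const))

lemma deriv_ldTh (t : ℝ) : deriv ldTh t = 64 / kappa * iteratedDeriv 1 rho (8 * t - 1) := by
  have h1 : HasDerivAt (fun t : ℝ => 8 * t - 1) 8 t := by
    simpa using ((hasDerivAt_id t).const_mul 8).sub_const 1
  have h2 := hasDerivAt_iteratedDeriv_rho 0 (8 * t - 1)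
  rw [iteratedDeriv_zero] at h2
  have h3 : HasDerivAt ldTh (8 / kappa * (iteratedDeriv (0 + 1) rho (8 * t - 1) * 8)) t :=
    (h2.comp t h1).const_mul (8 / kappa)
  rw [h3.deriv]
  simp only [zero_add]
  ring

/-- The loading vector. -/
noncomputable def ldQ (c : ℚ) : Fin 3 → ℝ := ![(c : ℝ), 0, 0]

/-- The full velocity. -/
noncomputable def fullU (uU : ℝ → (Fin 3 → ℝ) → Fin 3 → ℝ) (c : ℚ) (t : ℝ) (x : Fin 3 → ℝ) :
    Fin 3 → ℝ := uU t x + ldTh t • ldQ c

variable {F : PAM} {uU : ℝ → (Fin 3 → ℝ) → Fin 3 → ℝ}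

lemma GeomField.contDiff (h : GeomField F uU) :
    ContDiff ℝ ∞ (fun z : ℝ × (Fin 3 → ℝ) => uU z.1 z.2) :=
  contDiff_pi.2 fun i => (h.adm i).contDiff 0

lemma GeomField.contDiff_full (h : GeomField F uU) (c : ℚ) :
    ContDiff ℝ ∞ (fun z : ℝ × (Fin 3 → ℝ) => fullU uU c z.1 z.2) :=
  h.contDiff.add ((contDiff_ldTh.comp contDiff_fst).smul contDiff_const)

lemma GeomField.spPeriodic_full (h : GeomField F uU) (c : ℚ) : SpPeriodic (fullU uU c) := by
  intro t x k
  unfold fullU
  congr 1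
  funext i
  exact (h.adm i).periodic_space 0 t x k

lemma GeomField.diff_slice (h : GeomField F uU) (t : ℝ) (i : Fin 3) :
    Differentiable ℝ fun y => uU t y i :=
  differentiable_space (g := fun t y => uU t y i) ((h.adm i).contDiff 0) t

lemma GeomField.diff_time (h : GeomField F uU) (x : Fin 3 → ℝ) (i : Fin 3) :
    Differentiable ℝ fun s => uU s x i :=
  differentiable_time (g := fun s y => uU s y i) ((h.adm i).contDiff 0) x

lemma pd_full (c : ℚ) (t : ℝ) (i j : Fin 3) (x : Fin 3 → ℝ) :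
    pd j (fun y => fullU uU c t y i) x = pd j (fun y => uU t y i) x := by
  unfold pd fullU
  congr 1
  simp only [Pi.add_apply]
  rw [fderiv_add_const]

/-- the force of the full field -/
lemma GeomField.force_full (h : GeomField F uU) (c : ℚ) (ν t : ℝ) (ht : 0 ≤ t)
    (x : Fin 3 → ℝ) (i : Fin 3) :
    deriv (fun s => fullU uU c s x i) t + ∑ j, fullU uU c t x j *
        pd j (fun y => fullU uU c t y i) x -
        ν * ∑ j, pd j (pd j fun y => fullU uU c t y i) x =
      (deriv (fun s => uU s x i) t + ∑ j, uU t x j * pd j (fun y => uU t y i) x -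
        ν * ∑ j, pd j (fun y => pd j (fun y => uU t y i) y) x) + deriv ldTh t * ldQ c i := by
  have h1 : deriv (fun s => fullU uU c s x i) t =
      deriv (fun s => uU s x i) t + deriv ldTh t * ldQ c i := by
    have h2 : HasDerivAt (fun s => fullU uU c s x i)
        (deriv (fun s => uU s x i) t + deriv ldTh t * ldQ c i) t := by
      unfold fullU
      simp only [Pi.add_apply, Pi.smul_apply, smul_eq_mul]
      exact (h.diff_time x i t).hasDerivAt.add
        ((contDiff_ldTh.differentiable (by norm_num) t).hasDerivAt.mul_const _)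
    exact h2.deriv
  have h3 : ∀ j, (fun y => pd j (fun y => fullU uU c t y i) y) =
      fun y => pd j (fun y => uU t y i) y := fun j => funext fun y => pd_full c t i j y
  have h4 : ∀ j, pd j (pd j fun y => fullU uU c t y i) x =
      pd j (fun y => pd j (fun y => uU t y i) y) x := by
    intro j
    exact congrArg (fun g => pd j g x) (h3 j)
  have h5 : ∀ j, fullU uU c t x j * pd j (fun y => fullU uU c t y i) x =
      uU t x j * pd j (fun y => uU t y i) x := by
    intro j
    rw [pd_full]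
    rcases le_total t (1 / 4) with h6 | h6
    · have h7 : (fun y => uU t y i) = fun _ => 0 := by
        funext y
        rw [h.zero t ht h6 y]
        rfl
      have h8 : pd j (fun y => uU t y i) x = 0 := by
        rw [h7]; simp [pd]
      rw [h8]; ring
    · unfold fullU
      rw [ldTh_zero_of_ge h6]
      simp
  rw [h1]
  simp only [h4, h5]
  ring

/-- the term of the loading force -/
def loadTerm (p d : ℕ) : Term :=
  (((64 * (4 * (p : ℤ) - d), 4 * d), 0, -1, []), [(false, Sum.inl (0, 1, (8, 1), (1, 1)))], [])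

lemma term_loadTerm (ν : ℝ) {p d : ℕ} (hd : 0 < d) (t : ℝ) (x : Fin 3 → ℝ) :
    term ν (loadTerm p d) t x = deriv ldTh t * ((((p : ℚ) / d - 1 / 4 : ℚ)) : ℝ) := by
  have hd' : (d : ℝ) ≠ 0 := by positivity
  rw [deriv_ldTh]
  simp only [term, loadTerm, val, bump, List.map_cons, List.map_nil, List.prod_cons,
    List.prod_nil, Sum.elim_inl, pow_zero, Bool.false_eq_true, if_false, zpow_neg_one, mul_one,
    one_mul]
  push_cast
  simp only [div_one]
  have hk := kappa_ne
  field_simp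

lemma termOK_loadTerm (p d : ℕ) : TermOK (loadTerm p d) := by
  refine ⟨by simp [loadTerm], ?_, by simp [loadTerm]⟩
  intro g hg
  simp only [loadTerm, List.mem_singleton] at hg
  subst hg
  simp [BumpOK, val]

lemma isPeriodic_loadTerm (p d : ℕ) : isPeriodic (loadTerm p d) = false := by
  simp [isPeriodic, loadTerm]

/-- The existence of the compiler (block E1). -/
def CompilerExists : Prop :=
  ∀ (L : Fin 3 → List Term), (∀ i, ∀ τ ∈ L i, TermOK τ ∧ isPeriodic τ = true) →
    ∀ num den : ℕ → ℕ, Computable num → Computable den → (∀ n, 0 < den n) →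
    ∃ C : Machine × List ℕ → Fin 3 → List Term, IsCompiler C ∧
      ∀ z i, C z i = L i ++
        if i = 0 then [loadTerm (num (Encodable.encode z)) (den (Encodable.encode z))] else []

/-- The final theorem from the geometric block and the compiler block. -/
theorem main_of (hG : ∀ F : PAM, ∃ uU, GeomField F uU) (hC : CompilerExists) :
    ∃ (a lo hi : Fin 3 → ℚ) (C : Machine × List ℕ → Fin 3 → List Term),
      (∀ i, lo i < hi i) ∧ IsCompiler C ∧
      ∀ ν : ℝ, 0 < ν → ∀ (M : Machine) (w : List ℕ),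
        ContDiff ℝ ∞ (fun z : ℝ × (Fin 3 → ℝ) => force ν (C (M, w)) z.1 z.2) ∧
        ∃ (u : ℝ → (Fin 3 → ℝ) → Fin 3 → ℝ) (p : ℝ → (Fin 3 → ℝ) → ℝ) (X : ℝ → Fin 3 → ℝ),
          ContDiff ℝ ∞ (fun z : ℝ × (Fin 3 → ℝ) => u z.1 z.2) ∧
          ContDiff ℝ ∞ (fun z : ℝ × (Fin 3 → ℝ) => p z.1 z.2) ∧
          (∀ T > 0, IsClassical ν (force ν (C (M, w))) T u p) ∧
          (∀ T > 0, ∀ v q, IsClassical ν (force ν (C (M, w))) T v q →
            ∀ t ∈ Icc 0 T, v t = u t ∧ q t = p t) ∧
          IsTrajectory u (fun i => (a i : ℝ)) X ∧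
          (∀ Y, IsTrajectory u (fun i => (a i : ℝ)) Y → ∀ t, 0 ≤ t → Y t = X t) ∧
          ((∃ t, 0 ≤ t ∧ X t ∈ boxImage lo hi) ↔ Halts M w) := by
  obtain ⟨F, num, den, y0, hnum, hden, hden0, hx0, hy0, hhalts, hruns⟩ :=
    H760.universal HaltsCode haltsCode_re
  obtain ⟨uU, hU⟩ := hG F
  have hforce := PAdm.force_of_velocity (u := fun i _ t x => uU t x i) hU.adm
  choose L hL hLf using hforce
  obtain ⟨C, hC1, hC2⟩ := hC L hL num den hnum hden hden0
  refine ⟨![1 / 4, y0, 0], boxLo, boxHi, C, boxLo_lt_boxHi, hC1, ?_⟩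
  intro ν hν M w
  refine ⟨contDiff_force (fun i τ hτ => hC1.ok M w i τ hτ) ν, ?_⟩
  set n := Encodable.encode (M, w) with hn
  set c : ℚ := (num n : ℚ) / den n - 1 / 4 with hc
  set P₀ : ℚ × ℚ := ((num n : ℚ) / den n, y0) with hP₀
  have hsm := hU.contDiff_full c
  have hsp := hU.spPeriodic_full c
  have hfeq : ∀ t, 0 ≤ t → ∀ x i, force ν (C (M, w)) t x i =
      deriv (fun s => fullU uU c s x i) t + ∑ j, fullU uU c t x j *
        pd j (fun y => fullU uU c t y i) x -
        ν * ∑ j, pd j (pd j fun y => fullU uU c t y i) x := by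
    intro t ht x i
    rw [hU.force_full c ν t ht x i]
    unfold force
    rw [hC2 (M, w) i, List.map_append, List.sum_append, ← hLf i ν t x]
    congr 1
    fin_cases i
    · simp only [Fin.zero_eta, if_true, List.map_cons, List.map_nil, List.sum_cons, List.sum_nil,
        add_zero]
      rw [term_loadTerm ν (hden0 _)]
      simp [ldQ, hc, hn]
    · simp [ldQ]
    · simp [ldQ]
  have hcl : ∀ T > 0, IsClassical ν (force ν (C (M, w))) T (fullU uU c) (fun _ _ => 0) := by
    intro T hT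
    refine isClassical_of_smooth hsm (fun t _ => hsp t) ?_ ?_ hfeq hT
    · intro x
      unfold fullU
      rw [hU.zero 0 le_rfl (by norm_num), ldTh_zero]
      simp
    · intro t _ x
      have : ∀ j, pd j (fun y => fullU uU c t y j) x = pd j (fun y => uU t y j) x :=
        fun j => pd_full c t j j x
      simp only [this]
      exact hU.div t x
  have hsm1 : ContDiff ℝ 1 (fun z : ℝ × (Fin 3 → ℝ) => fullU uU c z.1 z.2) :=
    hsm.of_le (by norm_cast)
  obtain ⟨X, hX⟩ := exists_trajectory hsm1 hsp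
    (fun i => ((![1 / 4, y0, 0] : Fin 3 → ℚ) i : ℝ))
  refine ⟨fullU uU c, fun _ _ => 0, X, hsm, contDiff_const, hcl, ?_, hX, ?_, ?_⟩
  · intro T hT v q hv t ht
    exact IsClassical.unique hν.le hT (hcl T hT) hv t ht
  · intro Y hY t ht
    exact hY.eq_of_periodic hsm1 hsp hX ht
  · have ha : (fun i => ((![1 / 4, y0, 0] : Fin 3 → ℚ) i : ℝ)) = emb P₀ - ldQ c := by
      funext i
      fin_cases i
      · simp [emb, ldQ, hP₀, hc]
      · simp [emb, ldQ, hP₀]
      · simp [emb, ldQ]
    rw [ha] at hX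
    have horb := orbit_iff F P₀ hsm1 hsp (ldQ c) (by simp [ldQ]) ldTh ldG
      hasDerivAt_ldG ldG_zero (fun t ht => ldG_one ht) (fun t ht => ldTh_zero_of_ge ht)
      (fun t x _ => rfl) hU.zero hU.step hU.halt hX
    have hcode := haltsCode_encode (M, w)
    simp only at hcode
    constructor
    · intro hex
      by_contra hnh
      have hrun := hruns n (by rw [hn, hcode]; exact hnh)
      obtain ⟨t, ht, hmem⟩ := hex
      exact horb.2 hrun t ht hmem
    · intro hh
      exact horb.1 (hhalts n (by rw [hn, hcode]; exact hh))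

end Vale.Agent.P113
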