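import Vale.Agent.P113.Assembly

/-!
# P113: the force compiler

The compiler puts out a fixed list of periodic terms together with one loading term, in the
first component, whose coefficient is computed from the machine and its input.
-/

namespace Vale.Agent.P113

open Set

theorem encode_int_natCast (n : ℕ) : Encodable.encode (n : ℤ) = 2 * n := rfl

theorem encode_int_negSucc (n : ℕ) : Encodable.encode (Int.negSucc n) = 2 * n + 1 := rfl

theorem encode_int_sub (m n : ℕ) : Encodable.encode ((m : ℤ) - n) =
    if n ≤ m then 2 * (m - n) else 2 * (n - m - 1) + 1 := by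
  split_ifs with h
  · rw [← Nat.cast_sub h]
    exact encode_int_natCast _
  · have h1 : (m : ℤ) - n = Int.negSucc (n - m - 1) := by
      rw [Int.negSucc_eq]
      omega
    rw [h1]
    exact encode_int_negSucc _

theorem primrec_int_sub : Primrec fun r : ℕ × ℕ => (r.1 : ℤ) - r.2 := by
  rw [← Primrec.encode_iff]
  have h1 : Primrec fun r : ℕ × ℕ =>
      if r.2 ≤ r.1 then 2 * (r.1 - r.2) else 2 * (r.2 - r.1 - 1) + 1 := by
    refine Primrec.ite (Primrec.nat_le.comp Primrec.snd Primrec.fst) ?_ ?_
    · exact Primrec.nat_mul.comp (Primrec.const 2) (Primrec.nat_sub.comp Primrec.fst Primrec.snd)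
    · exact Primrec.succ.comp (Primrec.nat_mul.comp (Primrec.const 2)
        (Primrec.nat_sub.comp (Primrec.nat_sub.comp Primrec.snd Primrec.fst) (Primrec.const 1)))
  exact h1.of_eq fun r => (encode_int_sub r.1 r.2).symm

theorem primrec_loadTerm : Primrec fun r : ℕ × ℕ => loadTerm r.1 r.2 := by
  have h1 : Primrec fun r : ℕ × ℕ => (64 * (4 * (r.1 : ℤ) - r.2) : ℤ) := by
    have h2 : Primrec fun r : ℕ × ℕ => (256 * r.1, 64 * r.2) :=
      (Primrec.nat_mul.comp (Primrec.const 256) Primrec.fst).pair
        (Primrec.nat_mul.comp (Primrec.const 64) Primrec.snd)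
    refine (primrec_int_sub.comp h2).of_eq fun r => ?_
    push_cast
    ring
  unfold loadTerm
  exact Primrec.pair (Primrec.pair (Primrec.pair h1
    (Primrec.nat_mul.comp (Primrec.const 4) Primrec.snd)) (Primrec.const _)) (Primrec.const _)

/-- The lists put out: the fixed lists `L`, and the loading term in the first component. -/
def withLoad (L : Fin 3 → List Term) (p d : ℕ) (i : Fin 3) : List Term :=
  L i ++ if i = 0 then [loadTerm p d] else []

theorem primrec_withLoad (L : Fin 3 → List Term) :
    Primrec fun r : ℕ × ℕ => withLoad L r.1 r.2 := by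
  rw [Primrec.fin_curry]
  have hL : Primrec fun z : (ℕ × ℕ) × Fin 3 => L z.2 := (Primrec.dom_finite L).comp Primrec.snd
  have h2 : Primrec fun z : (ℕ × ℕ) × Fin 3 =>
      if z.2 = 0 then [loadTerm z.1.1 z.1.2] else [] := by
    refine Primrec.ite ?_ ?_ (Primrec.const [])
    · exact Primrec.eq.comp Primrec.snd (Primrec.const 0)
    · exact Primrec.list_cons.comp (primrec_loadTerm.comp Primrec.fst) (Primrec.const [])
  exact Primrec.list_append.comp hL h2

/-- The force compiler. -/
def compiler (L : Fin 3 → List Term) (num den : ℕ → ℕ) (z : Machine × List ℕ) :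
    Fin 3 → List Term :=
  withLoad L (num (Encodable.encode z)) (den (Encodable.encode z))

theorem computable_pair {num den : ℕ → ℕ} (hnum : Computable num) (hden : Computable den) :
    Computable fun z : Machine × List ℕ =>
      (num (Encodable.encode z), den (Encodable.encode z)) :=
  (hnum.comp Computable.encode).pair (hden.comp Computable.encode)

theorem computable_withLoad (L : Fin 3 → List Term) {num den : ℕ → ℕ}
    (hnum : Computable num) (hden : Computable den) : Computable fun z : Machine × List ℕ =>
      withLoad L (num (Encodable.encode z)) (den (Encodable.encode z)) := by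
  have h1 : Computable fun r : ℕ × ℕ => withLoad L r.1 r.2 := (primrec_withLoad L).to_comp
  have h2 := computable_pair hnum hden
  generalize withLoad L = g at h1 ⊢
  exact h1.comp h2

theorem compiler_eq (L : Fin 3 → List Term) (num den : ℕ → ℕ) :
    compiler L num den = fun z =>
      withLoad L (num (Encodable.encode z)) (den (Encodable.encode z)) := by
  funext z
  rw [compiler]

theorem computable_compiler (L : Fin 3 → List Term) {num den : ℕ → ℕ}
    (hnum : Computable num) (hden : Computable den) : Computable (compiler L num den) := by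
  rw [compiler_eq]
  exact computable_withLoad L hnum hden

theorem mem_withLoad {L : Fin 3 → List Term} {p d : ℕ} {i : Fin 3} {τ : Term}
    (h : τ ∈ withLoad L p d i) : τ ∈ L i ∨ τ = loadTerm p d := by
  unfold withLoad at h
  rcases List.mem_append.1 h with h | h
  · exact Or.inl h
  · split_ifs at h
    · exact Or.inr (List.mem_singleton.1 h)
    · simp at h

theorem filter_withLoad (L : Fin 3 → List Term) (p d : ℕ) (i : Fin 3) :
    (withLoad L p d i).filter isPeriodic = (L i).filter isPeriodic := by
  unfold withLoad
  split_ifs
  · rw [List.filter_append, List.filter_cons_of_neg (by simp [isPeriodic_loadTerm])]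
    simp
  · simp

theorem deriv_rho_of_ge {s : ℝ} (h : 1 < s) : deriv rho s = 0 := by
  have h1 : rho =ᶠ[nhds s] fun _ => 0 := by
    filter_upwards [lt_mem_nhds h] with z hz
    exact rho_zero (by rw [abs_of_pos (by linarith)]; exact hz.le)
  rw [h1.deriv_eq]
  simp

theorem term_loadTerm_of_ge (ν : ℝ) (p d : ℕ) {t : ℝ} (ht : 1 ≤ t) (x : Fin 3 → ℝ) :
    term ν (loadTerm p d) t x = 0 := by
  have h1 : bump (Sum.inl (0, 1, (8, 1), (1, 1))) t = 0 := by
    have h2 := deriv_rho_of_ge (s := 8 * t - 1) (by linarith)
    simpa [bump, val, iteratedDeriv_one] using h2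
  simp only [term, loadTerm, List.map_cons, List.prod_cons, Bool.false_eq_true, if_false, h1,
    zero_mul, mul_zero]

theorem isCompiler_compiler {L : Fin 3 → List Term} {num den : ℕ → ℕ}
    (hL : ∀ i, ∀ τ ∈ L i, TermOK τ ∧ isPeriodic τ = true)
    (hnum : Computable num) (hden : Computable den) : IsCompiler (compiler L num den) := by
  constructor
  · exact computable_compiler L hnum hden
  · intro M w i τ hτ
    rcases mem_withLoad hτ with h | h
    · exact (hL i τ h).1
    · rw [h]; exact termOK_loadTerm _ _
  · refine ⟨1, fun M w i τ hτ hp ν t x ht => ?_⟩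
    rcases mem_withLoad hτ with h | h
    · rw [(hL i τ h).2] at hp
      exact absurd hp (by simp)
    · rw [h, term_loadTerm_of_ge ν _ _ ht]
  · intro M w w' i
    exact (filter_withLoad L _ _ i).trans (filter_withLoad L _ _ i).symm

/-- The compiler exists. -/
theorem compilerExists : CompilerExists := by
  intro L hL num den hnum hden _
  exact ⟨compiler L num den, isCompiler_compiler hL hnum hden, fun z i => rfl⟩

end Vale.Agent.P113
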