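import Mathlib

/-!
# P113: definitions used in the statement

Functions on the torus `(ℝ/ℤ)³` are functions on `Fin 3 → ℝ` which are `1`-periodic in each
coordinate.
-/

namespace Vale.Agent.P113

open MeasureTheory Set

/-! ## Admissible functions -/

/-- `ρ(s) = exp (-1 / (1 - s²))` for `|s| < 1`, and `0` otherwise. -/
noncomputable def rho (s : ℝ) : ℝ := if |s| < 1 then Real.exp (-1 / (1 - s ^ 2)) else 0

/-- `κ`, the integral of `ρ`. -/
noncomputable def kappa : ℝ := ∫ s, rho s

/-- `σ(s)`, the integral of `ρ` over `(-∞, s]`. -/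
noncomputable def sig (s : ℝ) : ℝ := ∫ x in Iic s, rho x

/-- `π_l(s) = σ(s) - σ(s - l)`. -/
noncomputable def pil (l s : ℝ) : ℝ := sig s - sig (s - l)

/-- A rational number is given by an integer `p` and a natural number `d`: `(p, d)` stands for
`p / d`. -/
noncomputable def val (r : ℤ × ℕ) : ℝ := (r.1 : ℝ) / (r.2 : ℝ)

/-- The data of a bump: `inl (k, j, a, b)` or `inr (k, l, a, b)`. -/
abbrev Bump := (ℕ × ℕ × (ℤ × ℕ) × (ℤ × ℕ)) ⊕ (ℕ × (ℤ × ℕ) × (ℤ × ℕ) × (ℤ × ℕ))

/-- The bump with given data: `s ↦ s ^ k * ρ^(j)(a s - b)` or `s ↦ s ^ k * π_l(a s - b)`. -/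
noncomputable def bump (g : Bump) (s : ℝ) : ℝ :=
  Sum.elim
    (fun z => s ^ z.1 * iteratedDeriv z.2.1 rho (val z.2.2.1 * s - val z.2.2.2))
    (fun z => s ^ z.1 * pil (val z.2.1) (val z.2.2.1 * s - val z.2.2.2)) g

/-- The conditions `a ≠ 0`, and `l > 0`, on the data of a bump. -/
def BumpOK (g : Bump) : Prop :=
  Sum.elim (fun z => val z.2.2.1 ≠ 0) (fun z => val z.2.2.1 ≠ 0 ∧ 0 < val z.2.1) g

/-- The `1`-periodization. -/
noncomputable def per (g : ℝ → ℝ) (y : ℝ) : ℝ := ∑' m : ℤ, g (y + m)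

/-- The data of a term: `(q, m, n, [r₁, r₂, …])` for the coefficient
`q * ν ^ m * κ ^ n * log r₁ * log r₂ * …`; a list of bumps in the time variable, each marked
`true` if it is to be periodized; a list of bumps in the space variables, each with the number of
its variable. -/
abbrev Term :=
  ((ℤ × ℕ) × ℕ × ℤ × List (ℤ × ℕ)) × List (Bool × Bump) × List (Fin 3 × Bump)

/-- The function with given data: the coefficient times the product of the functions of time
times the product of the periodizations of the bumps in the space variables. -/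
noncomputable def term (ν : ℝ) (τ : Term) (t : ℝ) (x : Fin 3 → ℝ) : ℝ :=
  (val τ.1.1 * ν ^ τ.1.2.1 * kappa ^ τ.1.2.2.1 *
      (τ.1.2.2.2.map fun r => Real.log (val r)).prod) *
    (τ.2.1.map fun g => if g.1 = true then per (bump g.2) t else bump g.2 t).prod *
    (τ.2.2.map fun g => per (bump g.2) (x g.1)).prod

/-- The conditions on the data of a term: `r > 0` for the arguments of the logarithms, and the
conditions on its bumps. -/
def TermOK (τ : Term) : Prop :=
  (∀ r ∈ τ.1.2.2.2, 0 < val r) ∧ (∀ g ∈ τ.2.1, BumpOK g.2) ∧ (∀ g ∈ τ.2.2, BumpOK g.2)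

/-- A term is periodic if all its bumps in the time variable are periodized. -/
def isPeriodic (τ : Term) : Bool := τ.2.1.all Prod.fst

/-- The vector field whose components are the sums of the terms listed. -/
noncomputable def force (ν : ℝ) (L : Fin 3 → List Term) (t : ℝ) (x : Fin 3 → ℝ) (i : Fin 3) : ℝ :=
  ((L i).map fun τ => term ν τ t x).sum

/-! ## Machines -/

/-- A deterministic one-tape Turing machine: the start state, the halting states, and the table
of pairs `((state, symbol), (new state, new symbol, move))`. States and symbols are numbers, the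
blank is `0`; the moves are `none` (stay), `some true` (right), `some false` (left). -/
abbrev Machine := ℕ × List ℕ × List ((ℕ × ℕ) × ℕ × ℕ × Option Bool)

/-- A configuration: state, contents of the two-sided tape, position of the head. -/
abbrev Config := ℕ × (ℤ → ℕ) × ℤ

/-- The displacement of the head. -/
def shift (d : Option Bool) : ℤ := d.elim 0 fun b => if b = true then 1 else -1

/-- One step. If the table has no entry for the present state and symbol, the configuration does
not change. -/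
def next (M : Machine) (c : Config) : Config :=
  (List.lookup (c.1, c.2.1 c.2.2) M.2.2).elim c fun r =>
    (r.1, Function.update c.2.1 c.2.2 r.2.1, c.2.2 + shift r.2.2)

/-- The initial configuration: the word `w` stands on the cells `0, 1, …`, all other cells are
blank, and the head is at cell `0`. -/
def start (M : Machine) (w : List ℕ) : Config :=
  (M.1, fun i => if 0 ≤ i then w.getD i.toNat 0 else 0, 0)

/-- `M` halts on `w`: after finitely many steps, possibly none, its state is halting. -/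
def Halts (M : Machine) (w : List ℕ) : Prop :=
  ∃ n : ℕ, ((next M)^[n] (start M w)).1 ∈ M.2.1

/-- A force compiler: an algorithm which puts out, for every machine and every input, lists of
terms for the three components of a force; there is a time from which on all listed terms that
are not periodic vanish, and the lists of the periodic terms do not depend on the input. -/
structure IsCompiler (C : Machine × List ℕ → Fin 3 → List Term) : Prop where
  computable : Computable C
  ok : ∀ M w i, ∀ τ ∈ C (M, w) i, TermOK τ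
  transient : ∃ T₀ : ℝ, ∀ M w i, ∀ τ ∈ C (M, w) i, isPeriodic τ = false →
    ∀ ν t x, T₀ ≤ t → term ν τ t x = 0
  periodic : ∀ M w w' i, (C (M, w) i).filter isPeriodic = (C (M, w') i).filter isPeriodic

/-! ## The Navier-Stokes equations -/

/-- The partial derivative in the `i`-th coordinate. -/
noncomputable def pd (i : Fin 3) (g : (Fin 3 → ℝ) → ℝ) (x : Fin 3 → ℝ) : ℝ :=
  fderiv ℝ g x (Pi.single i 1)

/-- `(u, p)` is a classical solution on `[0, T]` of the Navier-Stokes equations on the torus with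
viscosity `ν`, force `f` and initial velocity `0`. -/
structure IsClassical (ν : ℝ) (f : ℝ → (Fin 3 → ℝ) → Fin 3 → ℝ) (T : ℝ)
    (u : ℝ → (Fin 3 → ℝ) → Fin 3 → ℝ) (p : ℝ → (Fin 3 → ℝ) → ℝ) : Prop where
  periodic_u : ∀ t ∈ Icc 0 T, ∀ (x : Fin 3 → ℝ) (k : Fin 3 → ℤ), u t (fun i => x i + k i) = u t x
  periodic_p : ∀ t ∈ Icc 0 T, ∀ (x : Fin 3 → ℝ) (k : Fin 3 → ℤ), p t (fun i => x i + k i) = p t x
  contDiff_u : ∀ t ∈ Icc 0 T, ContDiff ℝ 2 (u t)
  contDiff_p : ∀ t ∈ Icc 0 T, ContDiff ℝ 1 (p t)
  differentiable_t : ∀ t ∈ Icc 0 T, ∀ x i,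
    DifferentiableWithinAt ℝ (fun s => u s x i) (Icc 0 T) t
  continuous_u : ∀ i, ContinuousOn (fun z : ℝ × (Fin 3 → ℝ) => u z.1 z.2 i) (Icc 0 T ×ˢ univ)
  continuous_ut : ∀ i, ContinuousOn (fun z : ℝ × (Fin 3 → ℝ) =>
    derivWithin (fun s => u s z.2 i) (Icc 0 T) z.1) (Icc 0 T ×ˢ univ)
  continuous_ux : ∀ i j, ContinuousOn (fun z : ℝ × (Fin 3 → ℝ) =>
    pd j (fun y => u z.1 y i) z.2) (Icc 0 T ×ˢ univ)
  continuous_uxx : ∀ i j k, ContinuousOn (fun z : ℝ × (Fin 3 → ℝ) =>
    pd k (pd j fun y => u z.1 y i) z.2) (Icc 0 T ×ˢ univ)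
  continuous_p : ContinuousOn (fun z : ℝ × (Fin 3 → ℝ) => p z.1 z.2) (Icc 0 T ×ˢ univ)
  continuous_px : ∀ j, ContinuousOn (fun z : ℝ × (Fin 3 → ℝ) => pd j (p z.1) z.2)
    (Icc 0 T ×ˢ univ)
  momentum : ∀ t ∈ Icc 0 T, ∀ x i,
    derivWithin (fun s => u s x i) (Icc 0 T) t + ∑ j, u t x j * pd j (fun y => u t y i) x =
      -pd i (p t) x + ν * ∑ j, pd j (pd j fun y => u t y i) x + f t x i
  div_free : ∀ t ∈ Icc 0 T, ∀ x, ∑ j, pd j (fun y => u t y j) x = 0
  initial : ∀ x, u 0 x = 0
  mean_p : ∀ t ∈ Icc 0 T, ∫ x in Icc (0 : Fin 3 → ℝ) 1, p t x = 0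

/-- `X` is the trajectory of `a` for the velocity `u`: `X(0) = a` and `X'(t) = u(t, X(t))` for all
`t ≥ 0`. -/
def IsTrajectory (u : ℝ → (Fin 3 → ℝ) → Fin 3 → ℝ) (a : Fin 3 → ℝ) (X : ℝ → Fin 3 → ℝ) : Prop :=
  X 0 = a ∧ ∀ t, 0 ≤ t → HasDerivWithinAt X (u t (X t)) (Ici 0) t

/-- The image in the torus of the open box with corners `lo` and `hi`, as a periodic subset of
`Fin 3 → ℝ`. -/
def boxImage (lo hi : Fin 3 → ℚ) : Set (Fin 3 → ℝ) :=
  {x | ∃ k : Fin 3 → ℤ, ∀ i, (lo i : ℝ) < x i + k i ∧ x i + k i < (hi i : ℝ)}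

end Vale.Agent.P113
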