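import Vale.Agent.P113.Traj
import Vale.Agent.P113.H760.Interface

/-!
# P113: the trajectory follows the orbit of the piecewise affine system
-/

namespace Vale.Agent.P113

open Set Filter Topology Metric
open H760

/-- The point of the slice `x₃ = 0` with given rational coordinates. -/
noncomputable def emb (P : ℚ × ℚ) : Fin 3 → ℝ := ![(P.1 : ℝ), (P.2 : ℝ), 0]

/-- lower corner of the target box -/
def boxLo : Fin 3 → ℚ := ![0, 0, 1 / 4]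

/-- upper corner of the target box -/
def boxHi : Fin 3 → ℚ := ![1, 1, 3 / 4]

lemma boxLo_lt_boxHi : ∀ i, boxLo i < boxHi i := by
  intro i
  fin_cases i <;> simp [boxLo, boxHi]
  norm_num

lemma mem_boxImage_of {P : ℚ × ℚ} (h1 : 0 < P.1) (h2 : P.1 < 1) (h3 : 0 < P.2) (h4 : P.2 < 1) :
    ![(P.1 : ℝ), (P.2 : ℝ), 1 / 2] ∈ boxImage boxLo boxHi := by
  refine ⟨0, fun i => ?_⟩
  fin_cases i
  · simp [boxLo, boxHi]
    exact ⟨by exact_mod_cast h1, by exact_mod_cast h2⟩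
  · simp [boxLo, boxHi]
    exact ⟨by exact_mod_cast h3, by exact_mod_cast h4⟩
  · simp [boxLo, boxHi]
    norm_num

lemma notMem_boxImage_of {x : Fin 3 → ℝ} (h1 : -1 / 4 ≤ x 2) (h2 : x 2 ≤ 1 / 4) :
    x ∉ boxImage boxLo boxHi := by
  rintro ⟨k, hk⟩
  have h3 := hk 2
  simp [boxLo, boxHi] at h3
  obtain ⟨h4, h5⟩ := h3
  rcases le_or_gt (k 2) 0 with h | h
  · have h6 : ((k 2 : ℤ) : ℝ) ≤ 0 := by exact_mod_cast h
    norm_num at h1 h2 h4 h5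
    linarith
  · have h6 : (1 : ℝ) ≤ ((k 2 : ℤ) : ℝ) := by exact_mod_cast h
    norm_num at h1 h2 h4 h5
    linarith

/-- `Y` is a solution piece for `u` on `[s, T]` starting at `p`. -/
def IsPiece (u : ℝ → (Fin 3 → ℝ) → Fin 3 → ℝ) (s T : ℝ) (p : Fin 3 → ℝ) (Y : ℝ → Fin 3 → ℝ) :
    Prop :=
  Y s = p ∧ ∀ t ∈ Icc s T, HasDerivWithinAt Y (u t (Y t)) (Icc s T) t

variable {u uU : ℝ → (Fin 3 → ℝ) → Fin 3 → ℝ}

/-- Following a finite chain of pieces. -/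
lemma chain_follow (hc : ContDiff ℝ 1 (fun z : ℝ × (Fin 3 → ℝ) => u z.1 z.2))
    (hp : SpPeriodic u) {a : Fin 3 → ℝ} {X : ℝ → Fin 3 → ℝ} (hX : IsTrajectory u a X)
    (E : ℕ → Fin 3 → ℝ) (K : ℕ) (hE0 : E 0 = a)
    (hpiece : ∀ k < K, ∃ Y, IsPiece u k (k + 1) (E k) Y ∧ Y (k + 1) = E (k + 1)) :
    ∀ k ≤ K, X k = E k := by
  intro k hk
  induction k with
  | zero => simpa [hE0] using hX.1
  | succ k ih =>
    obtain ⟨Y, ⟨hY0, hY⟩, hY1⟩ := hpiece k (by omega)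
    have h1 := ih (by omega)
    have h2 := hX.eqOn_piece hc hp (Nat.cast_nonneg k) hY (by rw [h1, hY0])
    have h3 := h2 (show (k : ℝ) + 1 ∈ Icc (k : ℝ) (k + 1) from ⟨by linarith, le_rfl⟩)
    push_cast
    rw [h3, hY1]

/-- The trajectory of the loaded flow and the orbit of the system. -/
theorem orbit_iff (F : PAM) (P₀ : ℚ × ℚ)
    (hc : ContDiff ℝ 1 (fun z : ℝ × (Fin 3 → ℝ) => u z.1 z.2)) (hp : SpPeriodic u)
    (q : Fin 3 → ℝ) (hq : q 2 = 0) (θ g : ℝ → ℝ) (hg : ∀ t, HasDerivAt g (θ t) t)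
    (hg0 : g 0 = 0) (hg1 : ∀ t, 1 / 4 ≤ t → g t = 1) (hθ : ∀ t, 1 / 4 ≤ t → θ t = 0)
    (hu : ∀ t x, 0 ≤ t → u t x = uU t x + θ t • q)
    (hzero : ∀ t, 0 ≤ t → t ≤ 1 / 4 → ∀ x, uU t x = 0)
    (hstep : ∀ (k : ℕ) (i : Fin F.n) (P : ℚ × ℚ), ((F.rule i).src).Mem P →
      ∃ Y : ℝ → Fin 3 → ℝ, Y k = emb P ∧ Y (k + 1) = emb ((F.rule i).map P) ∧
        ∀ t ∈ Icc (k : ℝ) (k + 1), HasDerivAt Y (uU t (Y t)) t ∧ -1 / 4 ≤ Y t 2 ∧ Y t 2 ≤ 1 / 4)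
    (hhalt : ∀ (k : ℕ) (j : Fin F.m) (P : ℚ × ℚ), (F.halt j).Mem P →
      ∃ (Y : ℝ → Fin 3 → ℝ) (s : ℝ), (k : ℝ) + 1 / 4 ≤ s ∧ Y k = emb P ∧
        Y s = ![(P.1 : ℝ), (P.2 : ℝ), 1 / 2] ∧
        ∀ t ∈ Icc (k : ℝ) s, HasDerivAt Y (uU t (Y t)) t)
    {X : ℝ → Fin 3 → ℝ} (hX : IsTrajectory u (emb P₀ - q) X) :
    (F.Halts P₀ → ∃ t, 0 ≤ t ∧ X t ∈ boxImage boxLo boxHi) ∧
    (F.Runs P₀ → ∀ t, 0 ≤ t → X t ∉ boxImage boxLo boxHi) := by
  -- the pieces for the full field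
  have conv : ∀ (k : ℕ) (T : ℝ) (Y : ℝ → Fin 3 → ℝ) (p : Fin 3 → ℝ), Y k = p →
      (∀ t ∈ Icc (k : ℝ) T, HasDerivAt Y (uU t (Y t)) t) → 
      ∃ Z : ℝ → Fin 3 → ℝ, IsPiece u k T (if k = 0 then p - q else p) Z ∧
        (∀ t, 1 / 4 ≤ t → Z t = Y t) ∧ (∀ t, Z t 2 = Y t 2) ∧ (k ≠ 0 → Z = Y) := by
    intro k T Y p hYk hY
    rcases Nat.eq_zero_or_pos k with hk | hk
    · subst hk
      refine ⟨fun t => Y t + (g t - 1) • q, ⟨?_, ?_⟩, ?_, ?_, fun h => absurd rfl h⟩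
      · simp only [Nat.cast_zero] at hYk ⊢
        rw [hYk, hg0]
        simp [sub_eq_add_neg]
      · intro t ht
        rw [Nat.cast_zero] at ht
        have ht0 : 0 ≤ t := ht.1
        have h1 : HasDerivAt (fun t => Y t + (g t - 1) • q) (uU t (Y t) + θ t • q) t :=
          (hY t (by simpa using ht)).add (((hg t).sub_const 1).smul_const q)
        have h2 : uU t (Y t + (g t - 1) • q) = uU t (Y t) := by
          rcases le_total t (1 / 4) with h | h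
          · rw [hzero t ht0 h, hzero t ht0 h]
          · rw [hg1 t h]; simp
        rw [hu t _ ht0, h2]
        exact h1.hasDerivWithinAt
      · intro t ht
        simp [hg1 t ht]
      · intro t
        simp [hq]
    · have hk0 : k ≠ 0 := by omega
      have hk1 : (1 : ℝ) ≤ k := by exact_mod_cast hk
      refine ⟨Y, ⟨by simp [hk0, hYk], ?_⟩, fun _ _ => rfl, fun _ => rfl, fun _ => rfl⟩
      intro t ht
      have ht1 : 1 / 4 ≤ t := by linarith [ht.1]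
      rw [hu t _ (by linarith [ht.1]), hθ t ht1, zero_smul, add_zero]
      exact (hY t ht).hasDerivWithinAt
  -- entry points
  have follow : ∀ (P : ℕ → ℚ × ℚ) (K : ℕ), P 0 = P₀ → (∀ k < K, F.Step (P k) (P (k + 1))) →
      ∀ k ≤ K, X k = if k = 0 then emb (P k) - q else emb (P k) := by
    intro P K hP0 hP
    refine chain_follow hc hp hX (fun k => if k = 0 then emb (P k) - q else emb (P k)) K
      (by simp [hP0]) ?_
    intro k hk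
    obtain ⟨i, hi, hmap⟩ := hP k hk
    obtain ⟨Y, hY0, hY1, hY⟩ := hstep k i (P k) hi
    obtain ⟨Z, hZ, hZ1, -, -⟩ := conv k (k + 1) Y (emb (P k)) hY0 (fun t ht => (hY t ht).1)
    refine ⟨Z, hZ, ?_⟩
    rw [hZ1 _ (by
      have : (0 : ℝ) ≤ k := Nat.cast_nonneg k
      linarith), hY1]
    simp [hmap]
  constructor
  · rintro ⟨K, P, hP0, hP, j, hj⟩
    have hXK := follow P K hP0 hP K le_rfl
    obtain ⟨Y, s, hs, hY0, hY1, hY⟩ := hhalt K j (P K) hj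
    obtain ⟨Z, hZ, hZ1, -, -⟩ := conv K s Y (emb (P K)) hY0 hY
    have hK0 : (0 : ℝ) ≤ K := Nat.cast_nonneg K
    have h2 := hX.eqOn_piece hc hp hK0 hZ.2 (by rw [hXK, hZ.1])
    have h3 := h2 (show s ∈ Icc (K : ℝ) s from ⟨by linarith, le_rfl⟩)
    refine ⟨s, by linarith, ?_⟩
    rw [h3, hZ1 _ (by linarith), hY1]
    obtain ⟨⟨g1, g2, g3⟩, g4, g5, g6⟩ := F.halt_good j
    obtain ⟨m1, m2, m3, m4⟩ := hj
    refine mem_boxImage_of ?_ ?_ ?_ ?_ <;> linarith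
  · rintro ⟨P, hP0, hP⟩ t ht
    set k := ⌊t⌋₊ with hk
    have hXk := follow P k hP0 (fun k _ => hP k) k le_rfl
    obtain ⟨i, hi, hmap⟩ := hP k
    obtain ⟨Y, hY0, hY1, hY⟩ := hstep k i (P k) hi
    obtain ⟨Z, hZ, -, hZ2, -⟩ := conv k (k + 1) Y (emb (P k)) hY0 (fun t ht => (hY t ht).1)
    have h2 := hX.eqOn_piece hc hp (Nat.cast_nonneg k) hZ.2 (by rw [hXk, hZ.1])
    have ht' : t ∈ Icc (k : ℝ) (k + 1) := ⟨Nat.floor_le ht, (Nat.lt_floor_add_one t).le⟩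
    have h3 := h2 ht'
    rw [h3]
    exact notMem_boxImage_of (by rw [hZ2]; exact (hY t ht').2.1)
      (by rw [hZ2]; exact (hY t ht').2.2)

end Vale.Agent.P113
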