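import Vale.Agent.P113.Defs

/-!
# P113 : the smooth bump `ρ`, its primitive `σ`, the plateau functions `π_ℓ`, periodization
-/

open MeasureTheory Set Filter Topology

namespace Vale.Agent.P113

/-! ### `ρ` -/

lemma rho_eq (s : ℝ) : rho s = expNegInvGlue (1 - s ^ 2) := by
  unfold rho expNegInvGlue
  by_cases h : |s| < 1
  · have h1 : s ^ 2 < 1 := (sq_lt_one_iff_abs_lt_one s).mpr h
    rw [if_pos h, if_neg (by linarith)]
    congr 1
    rw [neg_div, one_div]
  · have h1 : 1 ≤ s ^ 2 := by
      by_contra hc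
      exact h ((sq_lt_one_iff_abs_lt_one s).mp (by linarith))
    rw [if_neg h, if_pos (by linarith)]

lemma rho_fun_eq : rho = fun s => expNegInvGlue (1 - s ^ 2) := funext rho_eq

lemma contDiff_rho {n : ℕ∞} : ContDiff ℝ n rho := by
  rw [rho_fun_eq]
  exact expNegInvGlue.contDiff.comp (by fun_prop)

lemma continuous_rho : Continuous rho := (contDiff_rho (n := 0)).continuous

lemma rho_nonneg (s : ℝ) : 0 ≤ rho s := by
  rw [rho_eq]; exact expNegInvGlue.nonneg _

lemma rho_pos {s : ℝ} (h : |s| < 1) : 0 < rho s := by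
  rw [rho, if_pos h]; exact Real.exp_pos _

lemma rho_zero {s : ℝ} (h : 1 ≤ |s|) : rho s = 0 := by
  rw [rho, if_neg (not_lt.mpr h)]

lemma rho_neg (s : ℝ) : rho (-s) = rho s := by simp [rho]

lemma support_rho : Function.support rho = Ioo (-1) 1 := by
  ext s
  rw [Function.mem_support, mem_Ioo, ← abs_lt]
  constructor
  · intro h
    by_contra hc
    exact h (rho_zero (not_lt.mp hc))
  · intro h
    exact (rho_pos h).ne'

lemma tsupport_rho : tsupport rho = Icc (-1) 1 := by
  rw [tsupport, support_rho, closure_Ioo (by norm_num)]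

lemma hasCompactSupport_rho : HasCompactSupport rho := by
  rw [HasCompactSupport, tsupport_rho]; exact isCompact_Icc

lemma integrable_rho : Integrable rho :=
  continuous_rho.integrable_of_hasCompactSupport hasCompactSupport_rho

lemma kappa_pos : 0 < kappa := by
  unfold kappa
  rw [integral_pos_iff_support_of_nonneg rho_nonneg integrable_rho, support_rho]
  simp

/-! ### `σ` -/

lemma sig_sub (a b : ℝ) : sig b - sig a = ∫ x in a..b, rho x := by
  unfold sig
  rw [intervalIntegral.integral_Iic_sub_Iic integrable_rho.integrableOn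
    integrable_rho.integrableOn]

lemma sig_of_le {s : ℝ} (h : s ≤ -1) : sig s = 0 := by
  unfold sig
  rw [setIntegral_eq_zero_of_forall_eq_zero]
  intro x hx
  apply rho_zero
  rw [mem_Iic] at hx
  rw [abs_of_nonpos (by linarith)]
  linarith

lemma sig_of_ge {s : ℝ} (h : 1 ≤ s) : sig s = kappa := by
  unfold sig kappa
  rw [setIntegral_eq_integral_of_forall_compl_eq_zero]
  intro x hx
  apply rho_zero
  rw [mem_Iic, not_le] at hx
  rw [abs_of_nonneg (by linarith)]
  linarith

lemma sig_eq (s : ℝ) : sig s = ∫ x in (-1)..s, rho x := by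
  rw [← sig_sub, sig_of_le le_rfl, sub_zero]

lemma hasDerivAt_sig (s : ℝ) : HasDerivAt sig (rho s) s := by
  have h1 : sig = fun s => ∫ x in (-1)..s, rho x := funext sig_eq
  rw [h1]
  exact intervalIntegral.integral_hasDerivAt_right (continuous_rho.intervalIntegrable _ _)
    continuous_rho.stronglyMeasurable.stronglyMeasurableAtFilter continuous_rho.continuousAt

lemma deriv_sig : deriv sig = rho := funext fun s => (hasDerivAt_sig s).deriv

lemma differentiable_sig : Differentiable ℝ sig := fun s => (hasDerivAt_sig s).differentiableAt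

lemma contDiff_sig {n : ℕ∞} : ContDiff ℝ n sig := by
  have h : ContDiff ℝ ((⊤ : ℕ∞) : WithTop ℕ∞) sig := by
    rw [contDiff_infty_iff_deriv]
    exact ⟨differentiable_sig, by rw [deriv_sig]; exact contDiff_rho⟩
  exact h.of_le (by exact_mod_cast le_top)

lemma continuous_sig : Continuous sig := differentiable_sig.continuous

lemma sig_mono : Monotone sig := by
  intro a b h
  have h1 := sig_sub a b
  have h2 : 0 ≤ ∫ x in a..b, rho x :=
    intervalIntegral.integral_nonneg h fun x _ => rho_nonneg x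
  linarith

lemma sig_nonneg (s : ℝ) : 0 ≤ sig s := by
  rcases le_total s (-1) with h | h
  · rw [sig_of_le h]
  · rw [← sig_of_le (le_refl (-1))]; exact sig_mono h

lemma sig_le_kappa (s : ℝ) : sig s ≤ kappa := by
  rcases le_total s 1 with h | h
  · rw [← sig_of_ge (le_refl 1)]; exact sig_mono h
  · rw [sig_of_ge h]

/-! ### `π_ℓ` -/

lemma hasDerivAt_pil (l s : ℝ) : HasDerivAt (pil l) (rho s - rho (s - l)) s := by
  have h2 : HasDerivAt (fun s => sig (s - l)) (rho (s - l)) s := by
    have := (hasDerivAt_sig (s - l)).comp s ((hasDerivAt_id s).sub_const l)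
    simpa [Function.comp_def] using this
  exact (hasDerivAt_sig s).sub h2

lemma contDiff_pil {n : ℕ∞} (l : ℝ) : ContDiff ℝ n (pil l) := by
  unfold pil
  exact contDiff_sig.sub (contDiff_sig.comp (contDiff_id.sub contDiff_const))

lemma pil_plateau {l s : ℝ} (h1 : 1 ≤ s) (h2 : s ≤ l - 1) : pil l s = kappa := by
  rw [pil, sig_of_ge h1, sig_of_le (by linarith), sub_zero]

lemma pil_of_le {l s : ℝ} (hl : 0 ≤ l) (h : s ≤ -1) : pil l s = 0 := by
  rw [pil, sig_of_le h, sig_of_le (by linarith), sub_zero]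

lemma pil_of_ge {l s : ℝ} (hl : 0 ≤ l) (h : l + 1 ≤ s) : pil l s = 0 := by
  rw [pil, sig_of_ge (by linarith), sig_of_ge (by linarith), sub_self]

lemma hasCompactSupport_pil {l : ℝ} (hl : 0 ≤ l) : HasCompactSupport (pil l) := by
  apply HasCompactSupport.intro (isCompact_Icc (a := -1) (b := l + 1))
  intro x hx
  rw [mem_Icc, not_and_or, not_le, not_le] at hx
  rcases hx with hx | hx
  · exact pil_of_le hl hx.le
  · exact pil_of_ge hl hx.le

/-! ### periodization -/

/-- if only the term `m = 0` is nonzero -/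
lemma per_eq_single {g : ℝ → ℝ} {y : ℝ} (h : ∀ m : ℤ, m ≠ 0 → g (y + m) = 0) : per g y = g y := by
  unfold per
  rw [tsum_eq_single 0 h]
  simp

/-- periodicity -/
lemma per_add_int (g : ℝ → ℝ) (y : ℝ) (k : ℤ) : per g (y + k) = per g y := by
  unfold per
  rw [← (Equiv.addLeft k).tsum_eq (fun m : ℤ => g (y + m))]
  refine tsum_congr fun m => ?_
  simp only [Equiv.coe_addLeft]
  push_cast
  ring_nf

lemma per_add_one (g : ℝ → ℝ) (y : ℝ) : per g (y + 1) = per g y := by
  have := per_add_int g y 1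
  simpa using this

/-- finite sum representation near a point -/
lemma per_eq_sum {g : ℝ → ℝ} {R : ℝ} (hR : ∀ x, R < |x| → g x = 0) {y : ℝ} {N : ℕ}
    (hN : |y| + R < N) : per g y = ∑ m ∈ Finset.Icc (-(N : ℤ)) N, g (y + m) := by
  unfold per
  rw [tsum_eq_sum]
  intro m hm
  apply hR
  rw [Finset.mem_Icc, not_and_or, not_le, not_le] at hm
  have h1 : (N : ℝ) < |(m : ℝ)| := by
    rcases hm with hm | hm
    · have : (m : ℝ) < -(N : ℝ) := by exact_mod_cast hm
      rw [abs_of_neg (by have := Nat.cast_nonneg (α := ℝ) N; linarith)]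
      linarith
    · have : (N : ℝ) < m := by exact_mod_cast hm
      exact this.trans_le (le_abs_self _)
  have h2 : |(m : ℝ)| ≤ |y + m| + |y| := by
    calc |(m : ℝ)| = |(y + m) - y| := by ring_nf
      _ ≤ |y + m| + |y| := abs_sub _ _
  linarith

lemma exists_bound_of_hasCompactSupport {g : ℝ → ℝ} (hc : HasCompactSupport g) :
    ∃ R : ℝ, ∀ x, R < |x| → g x = 0 := by
  obtain ⟨R, hR⟩ := hc.isCompact.isBounded.subset_closedBall 0
  refine ⟨R, fun x hx => ?_⟩
  by_contra h
  have h1 : x ∈ tsupport g := subset_tsupport g h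
  have h2 := hR h1
  rw [Metric.mem_closedBall, Real.dist_eq, sub_zero] at h2
  linarith

lemma per_eventuallyEq {g : ℝ → ℝ} (hc : HasCompactSupport g) (y : ℝ) :
    ∃ N : ℕ, per g =ᶠ[𝓝 y] fun y => ∑ m ∈ Finset.Icc (-(N : ℤ)) N, g (y + m) := by
  obtain ⟨R, hR⟩ := exists_bound_of_hasCompactSupport hc
  obtain ⟨N, hN⟩ := exists_nat_gt (|y| + 1 + R)
  refine ⟨N, ?_⟩
  filter_upwards [Metric.ball_mem_nhds y one_pos] with z hz
  apply per_eq_sum hR
  rw [Metric.mem_ball, Real.dist_eq] at hz
  have : |z| ≤ |z - y| + |y| := by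
    calc |z| = |(z - y) + y| := by ring_nf
      _ ≤ _ := abs_add_le _ _
  linarith

lemma contDiff_per {n : WithTop ℕ∞} {g : ℝ → ℝ} (hg : ContDiff ℝ n g)
    (hc : HasCompactSupport g) : ContDiff ℝ n (per g) := by
  rw [contDiff_iff_contDiffAt]
  intro y
  obtain ⟨N, hN⟩ := per_eventuallyEq hc y
  refine ContDiffAt.congr_of_eventuallyEq ?_ hN
  apply ContDiff.contDiffAt
  apply ContDiff.sum
  intro m _
  exact hg.comp (contDiff_id.add contDiff_const)

lemma hasDerivAt_per {g g' : ℝ → ℝ} (hg : ∀ x, HasDerivAt g (g' x) x)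
    (hc : HasCompactSupport g) (y : ℝ) : HasDerivAt (per g) (per g' y) y := by
  obtain ⟨R, hR⟩ := exists_bound_of_hasCompactSupport hc
  have hR' : ∀ x, R < |x| → g' x = 0 := by
    intro x hx
    have h1 : g =ᶠ[𝓝 x] fun _ => 0 := by
      have : {z : ℝ | R < |z|} ∈ 𝓝 x := (isOpen_lt continuous_const continuous_abs).mem_nhds hx
      filter_upwards [this] with z hz using hR z hz
    have h2 : HasDerivAt g 0 x := (hasDerivAt_const x (0:ℝ)).congr_of_eventuallyEq h1
    exact (hg x).unique h2
  obtain ⟨N, hN⟩ := exists_nat_gt (|y| + 1 + R)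
  have h1 : per g =ᶠ[𝓝 y] fun y => ∑ m ∈ Finset.Icc (-(N : ℤ)) N, g (y + m) := by
    filter_upwards [Metric.ball_mem_nhds y one_pos] with z hz
    apply per_eq_sum hR
    rw [Metric.mem_ball, Real.dist_eq] at hz
    have : |z| ≤ |z - y| + |y| := by
      calc |z| = |(z - y) + y| := by ring_nf
        _ ≤ _ := abs_add_le _ _
    linarith
  have h2 : per g' y = ∑ m ∈ Finset.Icc (-(N : ℤ)) N, g' (y + m) := by
    apply per_eq_sum hR'
    linarith
  rw [h2]
  refine HasDerivAt.congr_of_eventuallyEq ?_ h1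
  apply HasDerivAt.fun_sum
  intro m _
  exact (hg (y + m)).comp_add_const y m

lemma deriv_per {g : ℝ → ℝ} (hg : Differentiable ℝ g) (hc : HasCompactSupport g) :
    deriv (per g) = per (deriv g) :=
  funext fun y => (hasDerivAt_per (fun x => (hg x).hasDerivAt) hc y).deriv

end Vale.Agent.P113
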