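import Vale.Agent.P113.Defs

/-!
# P113: trajectories of periodic velocity fields: existence, uniqueness, gluing
-/

namespace Vale.Agent.P113

open Set Filter Topology Metric
open scoped NNReal

/-- The field is periodic in space. -/
def SpPeriodic (u : ℝ → (Fin 3 → ℝ) → Fin 3 → ℝ) : Prop :=
  ∀ t (x : Fin 3 → ℝ) (k : Fin 3 → ℤ), u t (fun i => x i + k i) = u t x

variable {u : ℝ → (Fin 3 → ℝ) → Fin 3 → ℝ}

lemma exists_shift_mem_cube (x : Fin 3 → ℝ) :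
    ∃ k : Fin 3 → ℤ, (fun i => x i + k i) ∈ Icc (0 : Fin 3 → ℝ) 1 := by
  refine ⟨fun i => -⌊x i⌋, ?_⟩
  constructor
  · intro i
    have := Int.floor_le (x i)
    simp only [Pi.zero_apply, Int.cast_neg]
    linarith
  · intro i
    have := Int.lt_floor_add_one (x i)
    simp only [Pi.one_apply, Int.cast_neg]
    linarith

lemma slice_differentiable (hc : ContDiff ℝ 1 (fun z : ℝ × (Fin 3 → ℝ) => u z.1 z.2)) (t : ℝ) :
    Differentiable ℝ (u t) := by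
  have h1 : ContDiff ℝ 1 (fun y : Fin 3 → ℝ => ((t, y) : ℝ × (Fin 3 → ℝ))) := by fun_prop
  exact (hc.comp h1).differentiable (by norm_num)

lemma slice_fderiv (hc : ContDiff ℝ 1 (fun z : ℝ × (Fin 3 → ℝ) => u z.1 z.2)) (t : ℝ)
    (x : Fin 3 → ℝ) :
    fderiv ℝ (u t) x = (fderiv ℝ (fun z : ℝ × (Fin 3 → ℝ) => u z.1 z.2) (t, x)).comp
      (ContinuousLinearMap.inr ℝ ℝ (Fin 3 → ℝ)) := by
  have hd : HasFDerivAt (fun z : ℝ × (Fin 3 → ℝ) => u z.1 z.2)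
      (fderiv ℝ (fun z : ℝ × (Fin 3 → ℝ) => u z.1 z.2) (t, x)) (t, x) :=
    (hc.differentiable (by norm_num) (t, x)).hasFDerivAt
  have h2 : HasFDerivAt (fun y : Fin 3 → ℝ => ((t, y) : ℝ × (Fin 3 → ℝ)))
      (ContinuousLinearMap.inr ℝ ℝ (Fin 3 → ℝ)) x := hasFDerivAt_prodMk_right t x
  exact (hd.comp x h2).fderiv

lemma exists_bounds (hc : ContDiff ℝ 1 (fun z : ℝ × (Fin 3 → ℝ) => u z.1 z.2))
    (hp : SpPeriodic u) (T : ℝ) :
    ∃ K L : ℝ≥0, (∀ t ∈ Icc 0 T, LipschitzWith K (u t)) ∧ ∀ t ∈ Icc 0 T, ∀ x, ‖u t x‖ ≤ L := by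
  have hcomp : IsCompact (Icc (0 : ℝ) T ×ˢ Icc (0 : Fin 3 → ℝ) 1) :=
    isCompact_Icc.prod isCompact_Icc
  have hcontD : Continuous (fun z : ℝ × (Fin 3 → ℝ) =>
      (fderiv ℝ (fun z : ℝ × (Fin 3 → ℝ) => u z.1 z.2) z).comp
        (ContinuousLinearMap.inr ℝ ℝ (Fin 3 → ℝ))) :=
    (hc.continuous_fderiv (by norm_num)).clm_comp continuous_const
  obtain ⟨K, hK⟩ := hcomp.exists_bound_of_continuousOn hcontD.continuousOn
  obtain ⟨L, hL⟩ := hcomp.exists_bound_of_continuousOn hc.continuous.continuousOn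
  have hper : ∀ t (x : Fin 3 → ℝ) (k : Fin 3 → ℤ), u t (x + fun i => (k i : ℝ)) = u t x :=
    fun t x k => hp t x k
  refine ⟨K.toNNReal, L.toNNReal, fun t ht => ?_, fun t ht x => ?_⟩
  · refine lipschitzWith_of_nnnorm_fderiv_le (𝕜 := ℝ) (slice_differentiable hc t) fun x => ?_
    obtain ⟨k, hk⟩ := exists_shift_mem_cube x
    have h1 : fderiv ℝ (u t) x = fderiv ℝ (u t) (x + fun i => (k i : ℝ)) := by
      rw [← fderiv_comp_add_right (f := u t) (x := x) (fun i => (k i : ℝ))]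
      congr 1
      funext y
      exact (hper t y k).symm
    rw [h1, slice_fderiv hc]
    have h2 := hK (t, x + fun i => (k i : ℝ)) ⟨ht, hk⟩
    rw [← NNReal.coe_le_coe, coe_nnnorm]
    exact h2.trans (Real.le_coe_toNNReal K)
  · obtain ⟨k, hk⟩ := exists_shift_mem_cube x
    have h2 := hL (t, x + fun i => (k i : ℝ)) ⟨ht, hk⟩
    have h3 : u t (x + fun i => (k i : ℝ)) = u t x := hper t x k
    simp only [h3] at h2
    exact h2.trans (Real.le_coe_toNNReal L)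

/-- Uniqueness of solutions on an interval `[s, T]`, `0 ≤ s`. -/
lemma unique_Icc (hc : ContDiff ℝ 1 (fun z : ℝ × (Fin 3 → ℝ) => u z.1 z.2))
    (hp : SpPeriodic u) {s T : ℝ} (hs : 0 ≤ s) {X Y : ℝ → Fin 3 → ℝ}
    (hX : ∀ t ∈ Icc s T, HasDerivWithinAt X (u t (X t)) (Icc s T) t)
    (hY : ∀ t ∈ Icc s T, HasDerivWithinAt Y (u t (Y t)) (Icc s T) t)
    (h0 : X s = Y s) : EqOn X Y (Icc s T) := by
  obtain ⟨K, L, hK, -⟩ := exists_bounds hc hp T
  have key : ∀ Z : ℝ → Fin 3 → ℝ,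
      (∀ t ∈ Icc s T, HasDerivWithinAt Z (u t (Z t)) (Icc s T) t) →
      ∀ t ∈ Ico s T, HasDerivWithinAt Z (u t (Z t)) (Ici t) t := by
    intro Z hZ t ht
    have h1 := (hZ t (Ico_subset_Icc_self ht)).mono (Icc_subset_Icc_left ht.1)
    exact h1.mono_of_mem_nhdsWithin (Icc_mem_nhdsGE ht.2)
  refine ODE_solution_unique_of_mem_Icc_right (v := u) (s := fun _ => univ) (K := K)
    (fun t ht => (hK t ⟨hs.trans ht.1, ht.2.le⟩).lipschitzOnWith)
    (fun t ht => (hX t ht).continuousWithinAt) (key X hX) (fun _ _ => trivial)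
    (fun t ht => (hY t ht).continuousWithinAt) (key Y hY) (fun _ _ => trivial) h0

lemma exists_solution_Icc (hc : ContDiff ℝ 1 (fun z : ℝ × (Fin 3 → ℝ) => u z.1 z.2))
    (hp : SpPeriodic u) (a : Fin 3 → ℝ) {T : ℝ} (hT : 0 ≤ T) :
    ∃ X : ℝ → Fin 3 → ℝ, X 0 = a ∧
      ∀ t ∈ Icc 0 T, HasDerivWithinAt X (u t (X t)) (Icc 0 T) t := by
  obtain ⟨K, L, hK, hL⟩ := exists_bounds hc hp T
  have hPL : IsPicardLindelof u (tmin := 0) (tmax := T) ⟨0, le_rfl, hT⟩ a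
      (L * T.toNNReal) 0 L K :=
    { lipschitzOnWith := fun t ht => (hK t ht).lipschitzOnWith
      continuousOn := fun x _ => by
        have h1 : Continuous (fun t : ℝ => ((t, x) : ℝ × (Fin 3 → ℝ))) := by fun_prop
        exact (hc.continuous.comp h1).continuousOn
      norm_le := fun t ht x _ => hL t ht x
      mul_max_le := by
        simp [hT] }
  obtain ⟨X, hX0, hX⟩ := hPL.exists_eq_forall_mem_Icc_hasDerivWithinAt₀
  exact ⟨X, hX0, hX⟩

/-- A trajectory restricts to a solution on each interval. -/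
lemma IsTrajectory.restrict {a : Fin 3 → ℝ} {X : ℝ → Fin 3 → ℝ} (hX : IsTrajectory u a X)
    {s T : ℝ} (hs : 0 ≤ s) :
    ∀ t ∈ Icc s T, HasDerivWithinAt X (u t (X t)) (Icc s T) t := fun t ht =>
  (hX.2 t (hs.trans ht.1)).mono fun _ hr => hs.trans hr.1

/-- Existence of trajectories. -/
theorem exists_trajectory (hc : ContDiff ℝ 1 (fun z : ℝ × (Fin 3 → ℝ) => u z.1 z.2))
    (hp : SpPeriodic u) (a : Fin 3 → ℝ) : ∃ X, IsTrajectory u a X := by
  have h := fun n : ℕ => exists_solution_Icc hc hp a (T := (n : ℝ) + 1) (by positivity)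
  choose Y hY0 hY using h
  have heq : ∀ m n : ℕ, m ≤ n → EqOn (Y m) (Y n) (Icc 0 ((m : ℝ) + 1)) := by
    intro m n hmn
    have hle : (m : ℝ) + 1 ≤ n + 1 := by
      have : (m : ℝ) ≤ n := by exact_mod_cast hmn
      linarith
    refine unique_Icc hc hp le_rfl (hY m) (fun t ht => ?_) (by rw [hY0, hY0])
    exact (hY n t ⟨ht.1, ht.2.trans hle⟩).mono (Icc_subset_Icc_right hle)
  have hval : ∀ (n : ℕ) (t : ℝ), 0 ≤ t → t < (n : ℝ) + 1 → Y ⌊t⌋₊ t = Y n t := by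
    intro n t ht htn
    have h1 : ⌊t⌋₊ ≤ n := by
      have : ⌊t⌋₊ < n + 1 := (Nat.floor_lt ht).mpr (by exact_mod_cast htn)
      omega
    exact heq _ _ h1 ⟨ht, (Nat.lt_floor_add_one t).le⟩
  refine ⟨fun t => Y ⌊t⌋₊ t, ?_, fun t ht => ?_⟩
  · simp [hY0]
  · set n := ⌊t⌋₊ + 1 with hn
    have hlt : t < (n : ℝ) + 1 := by
      have := Nat.lt_floor_add_one t
      rw [hn]; push_cast; linarith
    have h1 : HasDerivWithinAt (Y n) (u t (Y n t)) (Ici 0) t := by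
      refine (hY n t ⟨ht, hlt.le⟩).mono_of_mem_nhdsWithin ?_
      have h2 : Iic ((n : ℝ) + 1) ∈ 𝓝 t := Iic_mem_nhds hlt
      rw [← Ici_inter_Iic]
      exact inter_mem self_mem_nhdsWithin (mem_nhdsWithin_of_mem_nhds h2)
    have h3 : (fun t => Y ⌊t⌋₊ t) =ᶠ[𝓝[Ici 0] t] Y n := by
      have h2 : Iio ((n : ℝ) + 1) ∈ 𝓝 t := Iio_mem_nhds hlt
      filter_upwards [self_mem_nhdsWithin, mem_nhdsWithin_of_mem_nhds h2] with r hr1 hr2
      exact hval n r hr1 hr2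
    have h4 : (fun t => Y ⌊t⌋₊ t) t = Y n t := hval n t ht hlt
    rw [h4]
    exact h1.congr_of_eventuallyEq h3 h4

/-- Uniqueness of trajectories. -/
theorem IsTrajectory.eq_of_periodic (hc : ContDiff ℝ 1 (fun z : ℝ × (Fin 3 → ℝ) => u z.1 z.2))
    (hp : SpPeriodic u) {a : Fin 3 → ℝ} {X Y : ℝ → Fin 3 → ℝ} (hX : IsTrajectory u a X)
    (hY : IsTrajectory u a Y) {t : ℝ} (ht : 0 ≤ t) : X t = Y t :=
  unique_Icc hc hp le_rfl (hX.restrict (T := t) le_rfl) (hY.restrict le_rfl)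
    (by rw [hX.1, hY.1]) ⟨ht, le_rfl⟩

/-- A trajectory agrees with every explicit solution piece starting at one of its points. -/
theorem IsTrajectory.eqOn_piece (hc : ContDiff ℝ 1 (fun z : ℝ × (Fin 3 → ℝ) => u z.1 z.2))
    (hp : SpPeriodic u) {a : Fin 3 → ℝ} {X Y : ℝ → Fin 3 → ℝ} (hX : IsTrajectory u a X)
    {s T : ℝ} (hs : 0 ≤ s) (hY : ∀ t ∈ Icc s T, HasDerivWithinAt Y (u t (Y t)) (Icc s T) t)
    (h0 : X s = Y s) : EqOn X Y (Icc s T) :=
  unique_Icc hc hp hs (hX.restrict hs) hY h0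

end Vale.Agent.P113
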